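import Mathlib

/-!
# A planar forcing gadget for signed prefix sums

Planar vectors are pairs of reals.  `sqn z` is the squared Euclidean norm of the pair `z`.
-/

namespace Vale.Agent.H70

/-- squared Euclidean norm of a pair -/
def sqn (z : ℝ × ℝ) : ℝ := z.1 ^ 2 + z.2 ^ 2

/-- Given the threshold `T` and the current state `z`, a unit vector whose inner product
with `z` equals `(T - 1 - sqn z) / 2`. -/
noncomputable def stepVec (T : ℝ) (z : ℝ × ℝ) : ℝ × ℝ :=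
  (((T - 1 - sqn z) / 2 * z.1 - Real.sqrt (sqn z - ((T - 1 - sqn z) / 2) ^ 2) * z.2) / sqn z,
   ((T - 1 - sqn z) / 2 * z.2 + Real.sqrt (sqn z - ((T - 1 - sqn z) / 2) ^ 2) * z.1) / sqn z)

/-- the pinned states -/
noncomputable def stSeq (T : ℝ) : ℕ → ℝ × ℝ
  | 0 => (1, 0)
  | k + 1 => stSeq T k - stepVec T (stSeq T k)

/-- the gadget vectors -/
noncomputable def gSeq (T : ℝ) : ℕ → ℝ × ℝ
  | 0 => (1, 0)
  | k + 1 => stepVec T (stSeq T k)

theorem aux_unit (a b n p q : ℝ) (hn : n ≠ 0) (hab : a ^ 2 + b ^ 2 = n)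
    (hq : q ^ 2 = n - p ^ 2) :
    ((p * a - q * b) / n) ^ 2 + ((p * b + q * a) / n) ^ 2 = 1 := by
  have h : ((p * a - q * b) / n) ^ 2 + ((p * b + q * a) / n) ^ 2
      = (p ^ 2 + q ^ 2) * (a ^ 2 + b ^ 2) / n ^ 2 := by
    field_simp
    ring
  rw [h, hq, hab]
  field_simp
  ring

theorem aux_inner (a b n p q : ℝ) (hn : n ≠ 0) (hab : a ^ 2 + b ^ 2 = n) :
    a * ((p * a - q * b) / n) + b * ((p * b + q * a) / n) = p := by
  have h : a * ((p * a - q * b) / n) + b * ((p * b + q * a) / n)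
      = p * (a ^ 2 + b ^ 2) / n := by
    field_simp
    ring
  rw [h, hab]
  field_simp

theorem sqn_stepVec (T : ℝ) (z : ℝ × ℝ) (h1 : 1 ≤ sqn z)
    (hp : ((T - 1 - sqn z) / 2) ^ 2 ≤ sqn z) : sqn (stepVec T z) = 1 := by
  have hn : sqn z ≠ 0 := by linarith
  have hq : Real.sqrt (sqn z - ((T - 1 - sqn z) / 2) ^ 2) ^ 2
      = sqn z - ((T - 1 - sqn z) / 2) ^ 2 := Real.sq_sqrt (by linarith)
  exact aux_unit z.1 z.2 (sqn z) _ _ hn rfl hq

theorem inner_stepVec (T : ℝ) (z : ℝ × ℝ) (h1 : 1 ≤ sqn z) :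
    z.1 * (stepVec T z).1 + z.2 * (stepVec T z).2 = (T - 1 - sqn z) / 2 := by
  have hn : sqn z ≠ 0 := by linarith
  exact aux_inner z.1 z.2 (sqn z) _ _ hn rfl

theorem sqn_add (z w : ℝ × ℝ) :
    sqn (z + w) = sqn z + sqn w + 2 * (z.1 * w.1 + z.2 * w.2) := by
  simp only [sqn, Prod.fst_add, Prod.snd_add]; ring

theorem sqn_sub (z w : ℝ × ℝ) :
    sqn (z - w) = sqn z + sqn w - 2 * (z.1 * w.1 + z.2 * w.2) := by
  simp only [sqn, Prod.fst_sub, Prod.snd_sub]; ring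

end Vale.Agent.H70

namespace Vale.Agent.H70

open Finset

theorem sqn_smul_sign (c : ℝ) (hc : c = 1 ∨ c = -1) (z : ℝ × ℝ) : sqn (c • z) = sqn z := by
  rcases hc with rfl | rfl <;> simp [sqn]

/-- Pinning lemma: if the wrong sign at each step reaches squared norm `T`, and the last pinned
state has squared norm at least `T`, then every signing has a prefix of squared norm at least `T`. -/
theorem pinning (g st : ℕ → ℝ × ℝ) (T : ℝ) (M : ℕ)
    (h0 : st 0 = g 0) (hst : ∀ k, st (k + 1) = st k - g (k + 1))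
    (hbad : ∀ k ≤ M, T ≤ sqn (st k + g (k + 1)))
    (hfin : T ≤ sqn (st (M + 1)))
    (ε : ℕ → ℝ) (hε : ∀ i, ε i = 1 ∨ ε i = -1) :
    ∃ k, k ≤ M + 2 ∧ T ≤ sqn (∑ j ∈ range k, ε j • g j) := by
  have key : ∀ k, k ≤ M + 1 →
      (∃ j, j ≤ k + 1 ∧ T ≤ sqn (∑ i ∈ range j, ε i • g i)) ∨
        ∑ i ∈ range (k + 1), ε i • g i = ε 0 • st k := by
    intro k
    induction k with
    | zero =>
      intro _
      right
      simp [h0]
    | succ k ih =>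
      intro hk
      rcases ih (by omega) with ⟨j, hj, hT⟩ | hP
      · exact Or.inl ⟨j, by omega, hT⟩
      · rw [sum_range_succ, hP]
        rcases hε 0 with e0 | e0 <;> rcases hε (k + 1) with e1 | e1
        · left
          refine ⟨k + 2, le_refl _, ?_⟩
          rw [sum_range_succ, hP, e0, e1, ← smul_add, sqn_smul_sign _ (Or.inl rfl)]
          exact hbad k (by omega)
        · right
          rw [e0, e1, hst k]
          simp [sub_eq_add_neg]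
        · right
          rw [e0, e1, hst k]
          simp [sub_eq_add_neg]
        · left
          refine ⟨k + 2, le_refl _, ?_⟩
          rw [sum_range_succ, hP, e0, e1, ← smul_add, sqn_smul_sign _ (Or.inr rfl)]
          exact hbad k (by omega)
  rcases key (M + 1) (le_refl _) with ⟨j, hj, hT⟩ | hP
  · exact ⟨j, hj, hT⟩
  · refine ⟨M + 2, le_refl _, ?_⟩
    rw [hP, sqn_smul_sign _ (hε 0)]
    exact hfin

end Vale.Agent.H70

namespace Vale.Agent.H70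

theorem two_pow_mul_half_pow_le (k M : ℕ) (hk : k ≤ M) : (2 : ℝ) ^ k * (1 / 2 : ℝ) ^ M ≤ 1 := by
  obtain ⟨j, rfl⟩ := Nat.exists_eq_add_of_le hk
  rw [pow_add, ← mul_assoc, ← mul_pow]
  norm_num
  exact pow_le_one₀ (by norm_num) (by norm_num)

theorem two_pow_succ_mul_half_pow (M : ℕ) : (2 : ℝ) ^ (M + 1) * (1 / 2 : ℝ) ^ M = 2 := by
  rw [pow_succ, mul_assoc, mul_comm (2 : ℝ), ← mul_assoc, ← mul_pow]
  norm_num

/-- squared norms of the pinned states of the gadget with threshold `3 - (1/2)^M` -/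
theorem sqn_stSeq (M : ℕ) : ∀ k, k ≤ M + 1 →
    sqn (stSeq (3 - (1 / 2 : ℝ) ^ M) k) = 1 - (1 / 2 : ℝ) ^ M + 2 ^ k * (1 / 2 : ℝ) ^ M := by
  intro k
  induction k with
  | zero => intro _; simp [stSeq, sqn]
  | succ k ih =>
    intro hk
    have hk' : k ≤ M := by omega
    have hn := ih (by omega)
    have hh : (0 : ℝ) ≤ (1 / 2 : ℝ) ^ M := by positivity
    have h2k : (1 : ℝ) ≤ 2 ^ k := one_le_pow₀ (by norm_num)
    have hle := two_pow_mul_half_pow_le k M hk'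
    have h1 : 1 ≤ sqn (stSeq (3 - (1 / 2 : ℝ) ^ M) k) := by
      rw [hn]; nlinarith
    have hinner := inner_stepVec (3 - (1 / 2 : ℝ) ^ M) _ h1
    have hp : ((3 - (1 / 2 : ℝ) ^ M - 1 - sqn (stSeq (3 - (1 / 2 : ℝ) ^ M) k)) / 2) ^ 2
        ≤ sqn (stSeq (3 - (1 / 2 : ℝ) ^ M) k) := by
      rw [hn]; nlinarith
    have hunit := sqn_stepVec (3 - (1 / 2 : ℝ) ^ M) _ h1 hp
    show sqn (stSeq (3 - (1 / 2 : ℝ) ^ M) k - stepVec (3 - (1 / 2 : ℝ) ^ M) (stSeq (3 - (1 / 2 : ℝ) ^ M) k)) = _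
    rw [sqn_sub, hunit, hinner, hn, pow_succ]
    ring

theorem sqn_gSeq_zero (T : ℝ) : sqn (gSeq T 0) = 1 := by simp [gSeq, sqn]

theorem gSeq_props (M : ℕ) (k : ℕ) (hk : k ≤ M) :
    sqn (gSeq (3 - (1 / 2 : ℝ) ^ M) (k + 1)) = 1 ∧
      sqn (stSeq (3 - (1 / 2 : ℝ) ^ M) k + gSeq (3 - (1 / 2 : ℝ) ^ M) (k + 1))
        = 3 - (1 / 2 : ℝ) ^ M := by
  have hn := sqn_stSeq M k (by omega)
  have hh : (0 : ℝ) ≤ (1 / 2 : ℝ) ^ M := by positivity
  have h2k : (1 : ℝ) ≤ 2 ^ k := one_le_pow₀ (by norm_num)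
  have hle := two_pow_mul_half_pow_le k M hk
  have h1 : 1 ≤ sqn (stSeq (3 - (1 / 2 : ℝ) ^ M) k) := by
    rw [hn]; nlinarith
  have hinner := inner_stepVec (3 - (1 / 2 : ℝ) ^ M) _ h1
  have hp : ((3 - (1 / 2 : ℝ) ^ M - 1 - sqn (stSeq (3 - (1 / 2 : ℝ) ^ M) k)) / 2) ^ 2
      ≤ sqn (stSeq (3 - (1 / 2 : ℝ) ^ M) k) := by
    rw [hn]; nlinarith
  have hunit := sqn_stepVec (3 - (1 / 2 : ℝ) ^ M) _ h1 hp
  refine ⟨hunit, ?_⟩
  show sqn (stSeq (3 - (1 / 2 : ℝ) ^ M) k + stepVec (3 - (1 / 2 : ℝ) ^ M) (stSeq (3 - (1 / 2 : ℝ) ^ M) k)) = _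
  rw [sqn_add, hunit, hinner, hn]
  ring

theorem sqn_gSeq (M : ℕ) (k : ℕ) (hk : k ≤ M + 1) : sqn (gSeq (3 - (1 / 2 : ℝ) ^ M) k) = 1 := by
  cases k with
  | zero => exact sqn_gSeq_zero _
  | succ k => exact (gSeq_props M k (by omega)).1

/-- The planar gadget: `M + 2` unit vectors such that every signing has a prefix sum of squared
norm at least `3 - (1/2)^M`. -/
theorem planar_forcing (M : ℕ) (ε : ℕ → ℝ) (hε : ∀ i, ε i = 1 ∨ ε i = -1) :
    ∃ k, k ≤ M + 2 ∧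
      3 - (1 / 2 : ℝ) ^ M ≤ sqn (∑ j ∈ Finset.range k, ε j • gSeq (3 - (1 / 2 : ℝ) ^ M) j) := by
  apply pinning (gSeq (3 - (1 / 2 : ℝ) ^ M)) (stSeq (3 - (1 / 2 : ℝ) ^ M)) _ M rfl
    (fun k => rfl) _ _ ε hε
  · intro k hk
    exact le_of_eq (gSeq_props M k hk).2.symm
  · rw [sqn_stSeq M (M + 1) (le_refl _), two_pow_succ_mul_half_pow]
    linarith

end Vale.Agent.H70
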