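import Mathlib
import Vale.Agent.H70.Gadget

/-!
# Assembling the forcing sequence in a space with an orthonormal family of size `n + 2`
-/

namespace Vale.Agent.H70

open Finset

variable {E : Type*} [NormedAddCommGroup E] [InnerProductSpace ℝ E]

theorem normsq_comb {ι : Type*} [Fintype ι] (b : ι → E) (hb : Orthonormal ℝ b) (c : ι → ℝ) :
    ‖∑ j, c j • b j‖ ^ 2 = ∑ j, c j ^ 2 := by
  rw [← real_inner_self_eq_norm_sq, hb.inner_sum]
  simp [sq]

theorem sum_fin_add_two (n : ℕ) (f : Fin (n + 2) → ℝ) :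
    ∑ j, f j = f 0 + f 1 + ∑ l : Fin n, f l.succ.succ := by
  rw [Fin.sum_univ_succ, Fin.sum_univ_succ]
  simp [add_assoc]

/-- coordinates of the `i`-th vector of the forcing sequence -/
noncomputable def coef (n : ℕ) (T : ℝ) (i : ℕ) (j : Fin (n + 2)) : ℝ :=
  if i < n then (if (j : ℕ) = i + 2 then 1 else 0)
  else (if (j : ℕ) = 0 then (gSeq T (i - n)).1
    else if (j : ℕ) = 1 then (gSeq T (i - n)).2 else 0)

/-- the forcing sequence -/
noncomputable def fvec (n : ℕ) (T : ℝ) (b : Fin (n + 2) → E) (i : ℕ) : E :=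
  ∑ j, coef n T i j • b j

theorem coef_zero (n : ℕ) (T : ℝ) (i : ℕ) :
    coef n T i 0 = if i < n then 0 else (gSeq T (i - n)).1 := by
  unfold coef
  by_cases h : i < n <;> simp [h]

theorem coef_one (n : ℕ) (T : ℝ) (i : ℕ) :
    coef n T i 1 = if i < n then 0 else (gSeq T (i - n)).2 := by
  unfold coef
  by_cases h : i < n <;> simp [h]

theorem coef_succ_succ (n : ℕ) (T : ℝ) (i : ℕ) (l : Fin n) :
    coef n T i l.succ.succ = if i = (l : ℕ) then 1 else 0 := by
  unfold coef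
  have hl := l.isLt
  by_cases h : i < n
  · simp only [h, if_true, Fin.val_succ]
    by_cases h2 : i = (l : ℕ)
    · simp [h2]
    · have h3 : ¬ ((l : ℕ) = i) := fun h => h2 h.symm
      simp [h2, h3]
  · have h2 : ¬ i = (l : ℕ) := by omega
    simp [h, h2]

theorem normsq_fvec_lt (n : ℕ) (T : ℝ) (b : Fin (n + 2) → E) (hb : Orthonormal ℝ b)
    (i : ℕ) (hi : i < n) : ‖fvec n T b i‖ ^ 2 = 1 := by
  unfold fvec
  rw [normsq_comb b hb, sum_fin_add_two]
  simp only [coef_zero, coef_one, coef_succ_succ, hi, if_true]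
  have : ∑ l : Fin n, (if i = (l : ℕ) then (1 : ℝ) else 0) ^ 2 = 1 := by
    rw [Finset.sum_eq_single (⟨i, hi⟩ : Fin n)]
    · simp
    · intro l _ hl
      have : ¬ i = (l : ℕ) := fun h => hl (Fin.ext h.symm)
      simp [this]
    · intro h; exact absurd (Finset.mem_univ _) h
  rw [this]; norm_num

theorem normsq_fvec_ge (n : ℕ) (T : ℝ) (b : Fin (n + 2) → E) (hb : Orthonormal ℝ b)
    (i : ℕ) (hi : n ≤ i) : ‖fvec n T b i‖ ^ 2 = sqn (gSeq T (i - n)) := by
  unfold fvec
  rw [normsq_comb b hb, sum_fin_add_two]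
  have h : ¬ i < n := by omega
  simp only [coef_zero, coef_one, coef_succ_succ, h, if_false]
  have : ∑ l : Fin n, (if i = (l : ℕ) then (1 : ℝ) else 0) ^ 2 = 0 := by
    apply Finset.sum_eq_zero
    intro l _
    have : ¬ i = (l : ℕ) := by have := l.isLt; omega
    simp [this]
  rw [this, sqn]; ring

theorem prefix_eq (n : ℕ) (T : ℝ) (b : Fin (n + 2) → E) (ε : ℕ → ℝ) (k : ℕ) :
    ∑ i ∈ range k, ε i • fvec n T b i
      = ∑ j, (∑ i ∈ range k, ε i * coef n T i j) • b j := by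
  unfold fvec
  simp_rw [Finset.smul_sum, smul_smul, Finset.sum_smul]
  rw [Finset.sum_comm]

theorem normsq_prefix (n : ℕ) (T : ℝ) (b : Fin (n + 2) → E) (hb : Orthonormal ℝ b)
    (ε : ℕ → ℝ) (hε : ∀ i, ε i = 1 ∨ ε i = -1) (k : ℕ) :
    ‖∑ i ∈ range (n + k), ε i • fvec n T b i‖ ^ 2
      = (n : ℝ) + sqn (∑ j ∈ range k, ε (n + j) • gSeq T j) := by
  rw [prefix_eq, normsq_comb b hb, sum_fin_add_two]
  have c0 : ∑ i ∈ range (n + k), ε i * coef n T i 0
      = (∑ j ∈ range k, ε (n + j) • gSeq T j).1 := by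
    rw [Finset.sum_range_add, Prod.fst_sum]
    have : ∑ i ∈ range n, ε i * coef n T i 0 = 0 := by
      apply Finset.sum_eq_zero
      intro i hi
      have hi' : i < n := Finset.mem_range.mp hi
      simp [coef_zero, hi']
    rw [this, zero_add]
    apply Finset.sum_congr rfl
    intro j _
    simp [coef_zero]
  have c1 : ∑ i ∈ range (n + k), ε i * coef n T i 1
      = (∑ j ∈ range k, ε (n + j) • gSeq T j).2 := by
    rw [Finset.sum_range_add, Prod.snd_sum]
    have : ∑ i ∈ range n, ε i * coef n T i 1 = 0 := by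
      apply Finset.sum_eq_zero
      intro i hi
      have hi' : i < n := Finset.mem_range.mp hi
      simp [coef_one, hi']
    rw [this, zero_add]
    apply Finset.sum_congr rfl
    intro j _
    simp [coef_one]
  have c2 : ∀ l : Fin n, ∑ i ∈ range (n + k), ε i * coef n T i l.succ.succ = ε l := by
    intro l
    simp only [coef_succ_succ, mul_ite, mul_one, mul_zero]
    rw [Finset.sum_ite_eq']
    have : (l : ℕ) ∈ range (n + k) := by
      rw [Finset.mem_range]; have := l.isLt; omega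
    simp [this]
  rw [c0, c1]
  simp only [c2]
  have : ∑ l : Fin n, ε (l : ℕ) ^ 2 = (n : ℝ) := by
    have h1 : ∀ l : Fin n, ε (l : ℕ) ^ 2 = 1 := by
      intro l
      rcases hε l with h | h <;> rw [h] <;> norm_num
    simp [h1]
  rw [this, sqn]; ring

/-- Main statement for sequences indexed by `ℕ`. -/
theorem forcing_nat (n M : ℕ) (b : Fin (n + 2) → E) (hb : Orthonormal ℝ b) :
    (∀ i, i < n + 2 + M → ‖fvec n (3 - (1 / 2 : ℝ) ^ M) b i‖ = 1) ∧
    ∀ ε : ℕ → ℝ, (∀ i, ε i = 1 ∨ ε i = -1) → ∃ k, k ≤ n + 2 + M ∧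
      ((n + 2 : ℕ) : ℝ) + 1 - (1 / 2 : ℝ) ^ M
        ≤ ‖∑ i ∈ range k, ε i • fvec n (3 - (1 / 2 : ℝ) ^ M) b i‖ ^ 2 := by
  constructor
  · intro i hi
    have h2 : ‖fvec n (3 - (1 / 2 : ℝ) ^ M) b i‖ ^ 2 = 1 := by
      by_cases h : i < n
      · exact normsq_fvec_lt n _ b hb i h
      · rw [normsq_fvec_ge n _ b hb i (by omega)]
        exact sqn_gSeq M (i - n) (by omega)
    have h0 : 0 ≤ ‖fvec n (3 - (1 / 2 : ℝ) ^ M) b i‖ := norm_nonneg _
    nlinarith
  · intro ε hε
    obtain ⟨k, hk, hT⟩ := planar_forcing M (fun j => ε (n + j)) (fun j => hε (n + j))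
    refine ⟨n + k, by omega, ?_⟩
    rw [normsq_prefix n _ b hb ε hε k]
    push_cast
    linarith

end Vale.Agent.H70
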