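import Mathlib

/-!
# A depth-first certificate for forced prefix sums of integer triples

`chk3 B vs s` evaluates to `true` only if for every choice of signs the signed prefix sums of
the list `vs`, started from `s`, reach squared norm at least `B` at some nonempty prefix.
-/

namespace Vale.Agent.H70

open Finset

/-- squared Euclidean norm of an integer triple -/
def nsq3 (s : ℤ × ℤ × ℤ) : ℤ := s.1 * s.1 + s.2.1 * s.2.1 + s.2.2 * s.2.2

/-- depth-first check that every signing is forced to squared norm at least `B` -/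
def chk3 (B : ℤ) : List (ℤ × ℤ × ℤ) → ℤ × ℤ × ℤ → Bool
  | [], _ => false
  | v :: vs, s =>
    (decide (B ≤ nsq3 (s + v)) || chk3 B vs (s + v)) &&
      (decide (B ≤ nsq3 (s - v)) || chk3 B vs (s - v))

theorem chk3_sound (B : ℤ) : ∀ (vs : List (ℤ × ℤ × ℤ)) (s : ℤ × ℤ × ℤ), chk3 B vs s = true →
    ∀ ε : ℕ → ℤ, (∀ i, ε i = 1 ∨ ε i = -1) →
      ∃ k, k ≤ vs.length ∧ B ≤ nsq3 (s + ∑ i ∈ range k, ε i • vs.getD i 0) := by
  intro vs
  induction vs with
  | nil => intro s h; simp [chk3] at h
  | cons v vs ih =>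
    intro s h ε hε
    simp only [chk3, Bool.and_eq_true, Bool.or_eq_true, decide_eq_true_eq] at h
    obtain ⟨h1, h2⟩ := h
    have key : ∀ s' : ℤ × ℤ × ℤ, s' = s + ε 0 • v →
        (B ≤ nsq3 s' ∨ chk3 B vs s' = true) →
        ∃ k, k ≤ (v :: vs).length ∧ B ≤ nsq3 (s + ∑ i ∈ range k, ε i • (v :: vs).getD i 0) := by
      intro s' hs' hor
      rcases hor with hB | hc
      · refine ⟨1, by simp, ?_⟩
        simpa [hs'] using hB
      · obtain ⟨k, hk, hB⟩ := ih s' hc (fun i => ε (i + 1)) (fun i => hε (i + 1))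
        refine ⟨k + 1, by simpa using hk, ?_⟩
        rw [Finset.sum_range_succ']
        have e : s + (∑ i ∈ range k, ε (i + 1) • (v :: vs).getD (i + 1) 0
            + ε 0 • (v :: vs).getD 0 0) = s' + ∑ i ∈ range k, ε (i + 1) • vs.getD i 0 := by
          simp [hs']
          abel
        rw [e]
        exact hB
    rcases hε 0 with h0 | h0
    · exact key (s + v) (by rw [h0, one_smul]) h1
    · exact key (s - v) (by rw [h0, neg_one_smul, sub_eq_add_neg]) h2

end Vale.Agent.H70
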