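import Mathlib
import Vale.Agent.H70.Cert

/-!
# From an integer certificate to real coordinates
-/

namespace Vale.Agent.H70

open Finset

/-- the three coordinates of an integer triple, divided by `D`, as a real vector -/
noncomputable def rvec3 (D : ℤ) (s : ℤ × ℤ × ℤ) : Fin 3 → ℝ :=
  ![(s.1 : ℝ) / D, (s.2.1 : ℝ) / D, (s.2.2 : ℝ) / D]

theorem rvec3_zero (D : ℤ) (s : ℤ × ℤ × ℤ) : rvec3 D s 0 = (s.1 : ℝ) / D := rfl

theorem rvec3_one (D : ℤ) (s : ℤ × ℤ × ℤ) : rvec3 D s 1 = (s.2.1 : ℝ) / D := rfl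

theorem rvec3_two (D : ℤ) (s : ℤ × ℤ × ℤ) : rvec3 D s 2 = (s.2.2 : ℝ) / D := rfl

theorem sum_sq_rvec3 (D : ℤ) (s : ℤ × ℤ × ℤ) :
    ∑ l, rvec3 D s l ^ 2 = (nsq3 s : ℝ) / ((D : ℝ) * D) := by
  rw [Fin.sum_univ_three, rvec3_zero, rvec3_one, rvec3_two]
  simp only [nsq3]
  push_cast
  by_cases hD : (D : ℝ) = 0
  · simp [hD]
  · field_simp

theorem fst_sum_smul (c : ℕ → ℤ) (f : ℕ → ℤ × ℤ × ℤ) (k : ℕ) :
    (∑ i ∈ range k, c i • f i).1 = ∑ i ∈ range k, c i * (f i).1 := by
  rw [Prod.fst_sum]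
  simp

theorem snd_fst_sum_smul (c : ℕ → ℤ) (f : ℕ → ℤ × ℤ × ℤ) (k : ℕ) :
    (∑ i ∈ range k, c i • f i).2.1 = ∑ i ∈ range k, c i * (f i).2.1 := by
  rw [Prod.snd_sum, Prod.fst_sum]
  simp

theorem snd_snd_sum_smul (c : ℕ → ℤ) (f : ℕ → ℤ × ℤ × ℤ) (k : ℕ) :
    (∑ i ∈ range k, c i • f i).2.2 = ∑ i ∈ range k, c i * (f i).2.2 := by
  rw [Prod.snd_sum, Prod.snd_sum]
  simp

/-- A successful depth-first check gives a forcing sequence in three real coordinates. -/
theorem cert3_real (B D : ℤ) (hD : 0 < D) (vs : List (ℤ × ℤ × ℤ))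
    (hchk : chk3 B vs (0, 0, 0) = true) (hnorm : ∀ v ∈ vs, nsq3 v ≤ D * D) :
    (∀ t, ∑ l, rvec3 D (vs.getD t 0) l ^ 2 ≤ 1) ∧
    ∀ ε : ℕ → ℝ, (∀ i, ε i = 1 ∨ ε i = -1) →
      ∃ k, k ≤ vs.length ∧
        (B : ℝ) / ((D : ℝ) * D) ≤ ∑ l, (∑ t ∈ range k, ε t * rvec3 D (vs.getD t 0) l) ^ 2 := by
  have hDr : (0 : ℝ) < (D : ℝ) := by exact_mod_cast hD
  have hDD : (0 : ℝ) < (D : ℝ) * D := mul_pos hDr hDr
  constructor
  · intro t
    rw [sum_sq_rvec3, div_le_one hDD]
    have h1 : nsq3 (vs.getD t 0) ≤ D * D := by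
      by_cases ht : t < vs.length
      · have : vs.getD t 0 ∈ vs := by
          rw [List.getD_eq_getElem _ _ ht]
          exact List.getElem_mem ht
        exact hnorm _ this
      · have : vs.getD t 0 = 0 := by
          rw [List.getD_eq_default _ _ (by omega)]
        rw [this]
        have : nsq3 0 = 0 := by simp [nsq3]
        rw [this]
        positivity
    exact_mod_cast h1
  · intro ε hε
    obtain ⟨k, hk, hB⟩ := chk3_sound B vs (0, 0, 0) hchk (fun i => if ε i = 1 then 1 else -1)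
      (by intro i; by_cases h : ε i = 1 <;> simp [h])
    refine ⟨k, hk, ?_⟩
    have hcast : ∀ i, (if ε i = 1 then (1 : ℝ) else -1) = ε i := by
      intro i
      rcases hε i with h | h
      · rw [if_pos h, h]
      · rw [if_neg (by rw [h]; norm_num), h]
    set P : ℤ × ℤ × ℤ := ∑ i ∈ range k, (if ε i = 1 then (1 : ℤ) else -1) • vs.getD i 0 with hP
    have hzero : ((0, 0, 0) : ℤ × ℤ × ℤ) + P = P := by
      have : ((0, 0, 0) : ℤ × ℤ × ℤ) = 0 := rfl
      rw [this, zero_add]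
    rw [hzero] at hB
    have e : ∀ l, ∑ t ∈ range k, ε t * rvec3 D (vs.getD t 0) l = rvec3 D P l := by
      intro l
      fin_cases l
      · show ∑ t ∈ range k, ε t * rvec3 D (vs.getD t 0) 0 = rvec3 D P 0
        simp only [rvec3_zero]
        rw [hP, fst_sum_smul]
        push_cast
        rw [Finset.sum_div]
        apply Finset.sum_congr rfl
        intro i _
        rw [hcast i]; ring
      · show ∑ t ∈ range k, ε t * rvec3 D (vs.getD t 0) 1 = rvec3 D P 1
        simp only [rvec3_one]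
        rw [hP, snd_fst_sum_smul]
        push_cast
        rw [Finset.sum_div]
        apply Finset.sum_congr rfl
        intro i _
        rw [hcast i]; ring
      · show ∑ t ∈ range k, ε t * rvec3 D (vs.getD t 0) 2 = rvec3 D P 2
        simp only [rvec3_two]
        rw [hP, snd_snd_sum_smul]
        push_cast
        rw [Finset.sum_div]
        apply Finset.sum_congr rfl
        intro i _
        rw [hcast i]; ring
    simp only [e]
    rw [sum_sq_rvec3, div_le_div_iff_of_pos_right hDD]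
    exact_mod_cast hB

end Vale.Agent.H70
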