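import Mathlib
import Vale.Agent.H70.Bridge

/-!
# An explicit sequence of 24 vectors with three coordinates forcing squared norm 4.36

The list `cert3Vs` holds 24 integer triples of Euclidean norm at most `cert3D = 100000`.
A depth-first check (evaluated by the kernel) shows that every signing of the list has a
nonempty prefix whose sum has squared norm at least `cert3B = 4.36 * cert3D ^ 2`.
-/

namespace Vale.Agent.H70

open Finset

def cert3B : ℤ := 43600000000
def cert3D : ℤ := 100000
def cert3Vs : List (ℤ × ℤ × ℤ) := [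
  (11652, -99275, 2925),
  (-14655, 32530, 93418),
  (-90737, -41344, -7572),
  (79796, 55060, 22474),
  (-96387, -26499, 2678),
  (-1580, -85548, -51601),
  (-42234, -89533, -14146),
  (23164, 95059, -20665),
  (-17346, 97983, 9922),
  (57497, 30097, -76080),
  (-34832, -81609, -46115),
  (75197, 42128, 50701),
  (20675, 17227, -96310),
  (-93393, 12652, -33429),
  (42272, -6754, -90358),
  (72226, -67829, 13511),
  (45158, -89178, 2825),
  (51588, 28749, -80698),
  (-24841, 86045, 44488),
  (-84416, -53051, 7712),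
  (89458, -23424, -38059),
  (89787, 30135, 32095),
  (-17647, 91084, -37312),
  (32862, 23137, -91568)
]

theorem cert3Vs_chk : chk3 cert3B cert3Vs (0, 0, 0) = true := by decide

theorem cert3Vs_norm : ∀ v ∈ cert3Vs, nsq3 v ≤ cert3D * cert3D := by decide

theorem cert3Vs_length : cert3Vs.length = 24 := by decide

/-- the 24 vectors with three real coordinates (zero beyond index 23) -/
noncomputable def w3 (t : ℕ) : Fin 3 → ℝ := rvec3 cert3D (cert3Vs.getD t 0)

theorem w3_forcing :
    (∀ t, ∑ l, w3 t l ^ 2 ≤ 1) ∧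
    ∀ ε : ℕ → ℝ, (∀ i, ε i = 1 ∨ ε i = -1) →
      ∃ k, k ≤ 24 ∧ (109 / 25 : ℝ) ≤ ∑ l, (∑ t ∈ range k, ε t * w3 t l) ^ 2 := by
  obtain ⟨h1, h2⟩ := cert3_real cert3B cert3D (by decide) cert3Vs cert3Vs_chk cert3Vs_norm
  refine ⟨h1, ?_⟩
  intro ε hε
  obtain ⟨k, hk, hB⟩ := h2 ε hε
  refine ⟨k, by rw [cert3Vs_length] at hk; exact hk, ?_⟩
  have e : ((cert3B : ℤ) : ℝ) / (((cert3D : ℤ) : ℝ) * ((cert3D : ℤ) : ℝ)) = 109 / 25 := by
    simp only [cert3B, cert3D]
    norm_num
  rw [e] at hB
  exact hB

end Vale.Agent.H70
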