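import Mathlib
import Vale.Agent.H70.Assemble

/-!
# Lifting a forcing sequence in `m` coordinates to `n + m` coordinates

If a sequence `w` of vectors with `m` real coordinates, each of squared norm at most one, forces
squared norm `T` on some prefix of length at most `N` for every signing, then `n` orthonormal
vectors followed by `w`, placed in the remaining `m` coordinates, force `n + T`.
-/

namespace Vale.Agent.H70

open Finset

variable {E : Type*} [NormedAddCommGroup E] [InnerProductSpace ℝ E]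

/-- coordinates of the `i`-th vector of the lifted sequence -/
noncomputable def lcoef (n m : ℕ) (w : ℕ → Fin m → ℝ) (i : ℕ) : Fin (n + m) → ℝ :=
  Fin.addCases (fun a : Fin n => if i = (a : ℕ) then 1 else 0)
    (fun l : Fin m => if i < n then 0 else w (i - n) l)

/-- the lifted sequence -/
noncomputable def lvec (n m : ℕ) (w : ℕ → Fin m → ℝ) (b : Fin (n + m) → E) (i : ℕ) : E :=
  ∑ j, lcoef n m w i j • b j

theorem normsq_lvec_le (n m : ℕ) (w : ℕ → Fin m → ℝ) (hw : ∀ t, ∑ l, w t l ^ 2 ≤ 1)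
    (b : Fin (n + m) → E) (hb : Orthonormal ℝ b) (i : ℕ) : ‖lvec n m w b i‖ ≤ 1 := by
  have h2 : ‖lvec n m w b i‖ ^ 2 ≤ 1 := by
    unfold lvec
    rw [normsq_comb b hb, Fin.sum_univ_add]
    simp only [lcoef, Fin.addCases_left, Fin.addCases_right]
    by_cases h : i < n
    · have e1 : ∑ a : Fin n, (if i = (a : ℕ) then (1 : ℝ) else 0) ^ 2 = 1 := by
        have : ∀ a : Fin n, (if i = (a : ℕ) then (1 : ℝ) else 0) ^ 2
            = if a = (⟨i, h⟩ : Fin n) then 1 else 0 := by
          intro a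
          by_cases ha : i = (a : ℕ)
          · have : a = (⟨i, h⟩ : Fin n) := Fin.ext ha.symm
            simp [ha]
          · have : ¬ a = (⟨i, h⟩ : Fin n) := fun hh => ha (by rw [hh])
            simp [ha, this]
        simp [this]
      rw [e1]
      simp [h]
    · have e1 : ∑ a : Fin n, (if i = (a : ℕ) then (1 : ℝ) else 0) ^ 2 = 0 := by
        apply Finset.sum_eq_zero
        intro a _
        have : ¬ i = (a : ℕ) := by have := a.isLt; omega
        simp [this]
      simp only [h, if_false, e1, zero_add]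
      exact hw (i - n)
  have h0 : 0 ≤ ‖lvec n m w b i‖ := norm_nonneg _
  nlinarith

theorem lprefix_eq (n m : ℕ) (w : ℕ → Fin m → ℝ) (b : Fin (n + m) → E) (ε : ℕ → ℝ) (k : ℕ) :
    ∑ i ∈ range k, ε i • lvec n m w b i
      = ∑ j, (∑ i ∈ range k, ε i * lcoef n m w i j) • b j := by
  unfold lvec
  simp_rw [Finset.smul_sum, smul_smul, Finset.sum_smul]
  rw [Finset.sum_comm]

theorem normsq_lprefix (n m : ℕ) (w : ℕ → Fin m → ℝ) (b : Fin (n + m) → E)
    (hb : Orthonormal ℝ b) (ε : ℕ → ℝ) (hε : ∀ i, ε i = 1 ∨ ε i = -1) (k : ℕ) :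
    ‖∑ i ∈ range (n + k), ε i • lvec n m w b i‖ ^ 2
      = (n : ℝ) + ∑ l, (∑ t ∈ range k, ε (n + t) * w t l) ^ 2 := by
  rw [lprefix_eq, normsq_comb b hb, Fin.sum_univ_add]
  have c1 : ∀ a : Fin n, ∑ i ∈ range (n + k), ε i * lcoef n m w i (Fin.castAdd m a) = ε a := by
    intro a
    simp only [lcoef, Fin.addCases_left, mul_ite, mul_one, mul_zero]
    rw [Finset.sum_ite_eq']
    have : (a : ℕ) ∈ range (n + k) := by
      rw [Finset.mem_range]; have := a.isLt; omega
    simp [this]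
  have c2 : ∀ l : Fin m, ∑ i ∈ range (n + k), ε i * lcoef n m w i (Fin.natAdd n l)
      = ∑ t ∈ range k, ε (n + t) * w t l := by
    intro l
    simp only [lcoef, Fin.addCases_right]
    rw [Finset.sum_range_add]
    have : ∑ i ∈ range n, ε i * (if i < n then (0 : ℝ) else w (i - n) l) = 0 := by
      apply Finset.sum_eq_zero
      intro i hi
      have hi' : i < n := Finset.mem_range.mp hi
      simp [hi']
    rw [this, zero_add]
    apply Finset.sum_congr rfl
    intro t _
    simp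
  simp only [c1, c2]
  have : ∑ a : Fin n, ε (a : ℕ) ^ 2 = (n : ℝ) := by
    have h1 : ∀ a : Fin n, ε (a : ℕ) ^ 2 = 1 := by
      intro a
      rcases hε a with h | h <;> rw [h] <;> norm_num
    simp [h1]
  rw [this]

/-- Lifting statement for sequences indexed by `ℕ`. -/
theorem lift_forcing (n m N : ℕ) (T : ℝ) (w : ℕ → Fin m → ℝ) (hw : ∀ t, ∑ l, w t l ^ 2 ≤ 1)
    (hforce : ∀ ε : ℕ → ℝ, (∀ i, ε i = 1 ∨ ε i = -1) →
      ∃ k, k ≤ N ∧ T ≤ ∑ l, (∑ t ∈ range k, ε t * w t l) ^ 2)
    (b : Fin (n + m) → E) (hb : Orthonormal ℝ b) :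
    (∀ i, ‖lvec n m w b i‖ ≤ 1) ∧
    ∀ ε : ℕ → ℝ, (∀ i, ε i = 1 ∨ ε i = -1) → ∃ k, k ≤ n + N ∧
      (n : ℝ) + T ≤ ‖∑ i ∈ range k, ε i • lvec n m w b i‖ ^ 2 := by
  refine ⟨normsq_lvec_le n m w hw b hb, ?_⟩
  intro ε hε
  obtain ⟨k, hk, hT⟩ := hforce (fun t => ε (n + t)) (fun t => hε (n + t))
  refine ⟨n + k, by omega, ?_⟩
  rw [normsq_lprefix n m w b hb ε hε k]
  linarith

end Vale.Agent.H70
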