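import Mathlib

/-!
# Cluster merging with deferred signs

A finite family of vectors (clusters) indexed by a finite set of natural numbers is
*unmergeable* when no signed sum of at least two of its members lies in the unit ball.
Any finite family in the unit ball can be merged down to an unmergeable family in the
unit ball whose set of signed sums is contained in that of the original family.
-/

namespace Vale.Agent.H70.Merge

open Finset

/-- every value of `θ` is `1` or `-1` -/
def IsSign (θ : ℕ → ℝ) : Prop := ∀ j, θ j = 1 ∨ θ j = -1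

/-- no signed sum of at least two members of the family `c` over `J` has norm at most one -/
def Unmergeable {E : Type*} [NormedAddCommGroup E] [InnerProductSpace ℝ E]
    (J : Finset ℕ) (c : ℕ → E) : Prop :=
  ∀ T : Finset ℕ, T ⊆ J → 2 ≤ T.card → ∀ ζ : ℕ → ℝ, IsSign ζ → 1 < ‖∑ j ∈ T, ζ j • c j‖

theorem IsSign.sq {θ : ℕ → ℝ} (h : IsSign θ) (j : ℕ) : θ j * θ j = 1 := by
  rcases h j with h | h <;> rw [h] <;> norm_num

theorem IsSign.abs {θ : ℕ → ℝ} (h : IsSign θ) (j : ℕ) : |θ j| = 1 := by
  rcases h j with h | h <;> rw [h] <;> norm_num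

theorem isSign_one : IsSign (fun _ => (1 : ℝ)) := fun _ => Or.inl rfl

section mergeStep

variable {V E : Type*} [AddCommGroup V] [Module ℝ V]
  [NormedAddCommGroup E] [InnerProductSpace ℝ E]

/-- one merge: the members of `T` are replaced by their signed sum, stored at `j0` -/
theorem merge_span (J T : Finset ℕ) (hT : T ⊆ J) (j0 : ℕ) (hj0 : j0 ∈ T) (ζ : ℕ → ℝ)
    (hζ : IsSign ζ) (s : ℕ → V) (θ1 : ℕ → ℝ) (hθ1 : IsSign θ1) :
    ∃ θ : ℕ → ℝ, IsSign θ ∧
      ∑ j ∈ insert j0 (J \ T), θ1 j • Function.update s j0 (∑ i ∈ T, ζ i • s i) j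
        = ∑ j ∈ J, θ j • s j := by
  refine ⟨fun j => if j ∈ T then θ1 j0 * ζ j else θ1 j, ?_, ?_⟩
  · intro j
    by_cases hj : j ∈ T
    · simp only [hj, if_true]
      rcases hθ1 j0 with h | h <;> rcases hζ j with h' | h' <;> rw [h, h'] <;> norm_num
    · simp only [hj, if_false]
      exact hθ1 j
  · have hnot : j0 ∉ J \ T := by
      simp [hj0]
    rw [Finset.sum_insert hnot, ← Finset.sum_sdiff hT]
    rw [add_comm]
    congr 1
    · apply Finset.sum_congr rfl
      intro j hj
      have hjT : j ∉ T := (Finset.mem_sdiff.mp hj).2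
      have hne : j ≠ j0 := fun h => hjT (h ▸ hj0)
      simp [hjT, Function.update_of_ne hne]
    · rw [Function.update_self, Finset.smul_sum]
      apply Finset.sum_congr rfl
      intro j hj
      simp [hj, mul_smul]

/-- merging down to an unmergeable family -/
theorem exists_merge (L : V →ₗ[ℝ] E) :
    ∀ (n : ℕ) (J : Finset ℕ) (s : ℕ → V), J.card ≤ n → (∀ j ∈ J, ‖L (s j)‖ ≤ 1) →
      ∃ (J' : Finset ℕ) (s' : ℕ → V),
        (∀ j ∈ J', ‖L (s' j)‖ ≤ 1) ∧
        Unmergeable J' (fun j => L (s' j)) ∧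
        ∀ θ' : ℕ → ℝ, IsSign θ' → ∃ θ : ℕ → ℝ, IsSign θ ∧
          ∑ j ∈ J', θ' j • s' j = ∑ j ∈ J, θ j • s j := by
  intro n
  induction n with
  | zero =>
    intro J s hJ hs
    have hJ0 : J = ∅ := Finset.card_eq_zero.mp (Nat.le_zero.mp hJ)
    subst hJ0
    refine ⟨∅, s, by simp, ?_, fun θ' hθ' => ⟨θ', hθ', rfl⟩⟩
    intro T hT hcard
    have : T = ∅ := Finset.subset_empty.mp hT
    subst this
    simp at hcard
  | succ n ih =>
    intro J s hJ hs
    by_cases hU : Unmergeable J (fun j => L (s j))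
    · exact ⟨J, s, hs, hU, fun θ' hθ' => ⟨θ', hθ', rfl⟩⟩
    · unfold Unmergeable at hU
      push Not at hU
      obtain ⟨T, hT, hcard, ζ, hζ, hle⟩ := hU
      have hTne : T.Nonempty := by
        rw [← Finset.card_pos]; omega
      obtain ⟨j0, hj0⟩ := hTne
      have hnot : j0 ∉ J \ T := by simp [hj0]
      have hcard1 : (insert j0 (J \ T)).card ≤ n := by
        rw [Finset.card_insert_of_notMem hnot, Finset.card_sdiff_of_subset hT]
        have := Finset.card_le_card hT
        omega
      have hs1 : ∀ j ∈ insert j0 (J \ T),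
          ‖L (Function.update s j0 (∑ i ∈ T, ζ i • s i) j)‖ ≤ 1 := by
        intro j hj
        rcases Finset.mem_insert.mp hj with rfl | hj
        · rw [Function.update_self, map_sum]
          simpa [map_smul] using hle
        · have hjT : j ∉ T := (Finset.mem_sdiff.mp hj).2
          have hne : j ≠ j0 := fun h => hjT (h ▸ hj0)
          rw [Function.update_of_ne hne]
          exact hs j (Finset.mem_sdiff.mp hj).1
      obtain ⟨J', s', hs', hU', hspan⟩ := ih _ _ hcard1 hs1
      refine ⟨J', s', hs', hU', ?_⟩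
      intro θ' hθ'
      obtain ⟨θ1, hθ1, e1⟩ := hspan θ' hθ'
      obtain ⟨θ, hθ, e2⟩ := merge_span J T hT j0 hj0 ζ hζ s θ1 hθ1
      exact ⟨θ, hθ, e1.trans e2⟩

end mergeStep

end Vale.Agent.H70.Merge
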