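import Mathlib
import Vale.Agent.H70.Merge

/-!
# Geometry of unmergeable families and the merging strategy

* `dep_four`: at most four linearly dependent unit-ball vectors with small pairwise inner
  products have a signed sum in the unit ball.
* `sq_norm_sum_le`: the pair bound for signed sums.
* `exists_signs`: if every signed sum of every unmergeable family in the unit ball has
  squared norm at most `B`, then every sequence in the unit ball has signs for which all
  partial sums have squared norm at most `B`.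
-/

namespace Vale.Agent.H70.Merge

open Finset

section geom

variable {E : Type*} [NormedAddCommGroup E] [InnerProductSpace ℝ E]

/-- two unit-ball vectors with no short signed sum have small inner product -/
theorem pair_inner_lt {a b : E} (ha : ‖a‖ ≤ 1)
    (h1 : 1 < ‖a + b‖) (h2 : 1 < ‖a - b‖) : 2 * |inner ℝ a b| < ‖b‖ ^ 2 := by
  have e1 := norm_add_sq_real a b
  have e2 := norm_sub_sq_real a b
  have h1' : 1 < ‖a + b‖ ^ 2 := by nlinarith [norm_nonneg (a + b)]
  have h2' : 1 < ‖a - b‖ ^ 2 := by nlinarith [norm_nonneg (a - b)]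
  have ha' : ‖a‖ ^ 2 ≤ 1 := by nlinarith [norm_nonneg a]
  rcases abs_cases (inner ℝ a b) with ⟨h, _⟩ | ⟨h, _⟩ <;> rw [h] <;> nlinarith

/-- the pair conditions of an unmergeable family -/
theorem Unmergeable.pair {J : Finset ℕ} {c : ℕ → E} (hU : Unmergeable J c)
    {i j : ℕ} (hi : i ∈ J) (hj : j ∈ J) (hij : i ≠ j) :
    1 < ‖c i + c j‖ ∧ 1 < ‖c i - c j‖ := by
  have hsub : ({i, j} : Finset ℕ) ⊆ J := by
    intro x hx
    rcases Finset.mem_insert.mp hx with rfl | hx
    · exact hi
    · rw [Finset.mem_singleton.mp hx]; exact hj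
  have hcard : 2 ≤ ({i, j} : Finset ℕ).card := by
    rw [Finset.card_pair hij]
  constructor
  · have := hU {i, j} hsub hcard (fun _ => 1) isSign_one
    rwa [Finset.sum_pair hij, one_smul, one_smul] at this
  · have := hU {i, j} hsub hcard (fun k => if k = j then -1 else 1) (by
      intro k; by_cases hk : k = j <;> simp [hk])
    rw [Finset.sum_pair hij] at this
    simpa [hij, sub_eq_add_neg] using this

theorem Unmergeable.inner_lt {J : Finset ℕ} {c : ℕ → E} (hU : Unmergeable J c)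
    (hc : ∀ j ∈ J, ‖c j‖ ≤ 1) {i j : ℕ} (hi : i ∈ J) (hj : j ∈ J) (hij : i ≠ j) :
    2 * |inner ℝ (c i) (c j)| < ‖c j‖ ^ 2 :=
  pair_inner_lt (hc i hi) (hU.pair hi hj hij).1 (hU.pair hi hj hij).2

/-- the squared norm of a signed sum of a family with small pairwise inner products -/
theorem sq_norm_sum_le (J : Finset ℕ) (c : ℕ → E) (hc : ∀ j ∈ J, ‖c j‖ ≤ 1)
    (hp : ∀ i ∈ J, ∀ j ∈ J, i ≠ j → 2 * |inner ℝ (c i) (c j)| ≤ 1) (θ : ℕ → ℝ)
    (hθ : IsSign θ) :
    ‖∑ j ∈ J, θ j • c j‖ ^ 2 ≤ (J.card : ℝ) * (J.card + 1) / 2 := by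
  rw [← real_inner_self_eq_norm_sq, sum_inner]
  have key : ∀ i ∈ J, inner ℝ (θ i • c i) (∑ j ∈ J, θ j • c j) ≤ ((J.card : ℝ) + 1) / 2 := by
    intro i hi
    rw [inner_sum]
    have h2 : ∀ j ∈ J, inner ℝ (θ i • c i) (θ j • c j)
        ≤ (1 / 2 : ℝ) + (if i = j then (1 / 2 : ℝ) else 0) := by
      intro j hj
      rw [real_inner_smul_left, real_inner_smul_right]
      by_cases hij : i = j
      · subst hij
        rw [if_pos rfl, real_inner_self_eq_norm_sq, ← mul_assoc, hθ.sq i, one_mul]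
        have := hc i hi
        nlinarith [norm_nonneg (c i)]
      · rw [if_neg hij, add_zero]
        have h3 := hp i hi j hj hij
        have h4 : θ i * (θ j * inner ℝ (c i) (c j)) ≤ |θ i * (θ j * inner ℝ (c i) (c j))| :=
          le_abs_self _
        rw [abs_mul, abs_mul, hθ.abs i, hθ.abs j, one_mul, one_mul] at h4
        linarith
    calc ∑ j ∈ J, inner ℝ (θ i • c i) (θ j • c j)
        ≤ ∑ j ∈ J, ((1 / 2 : ℝ) + (if i = j then (1 / 2 : ℝ) else 0)) := Finset.sum_le_sum h2
      _ = ((J.card : ℝ) + 1) / 2 := by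
        rw [Finset.sum_add_distrib, Finset.sum_ite_eq J i, if_pos hi, Finset.sum_const]
        simp
        ring
  calc ∑ i ∈ J, inner ℝ (θ i • c i) (∑ j ∈ J, θ j • c j)
      ≤ ∑ i ∈ J, ((J.card : ℝ) + 1) / 2 := Finset.sum_le_sum key
    _ = (J.card : ℝ) * (J.card + 1) / 2 := by
      rw [Finset.sum_const]
      simp
      ring

end geom

section geom2

variable {E : Type*} [NormedAddCommGroup E] [InnerProductSpace ℝ E]

/-- a nontrivial linear relation among more vectors than the dimension -/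
theorem exists_dep [FiniteDimensional ℝ E] (T : Finset ℕ) (c : ℕ → E)
    (h : Module.finrank ℝ E < T.card) :
    ∃ μ : ℕ → ℝ, ∑ j ∈ T, μ j • c j = 0 ∧ ∃ j ∈ T, μ j ≠ 0 := by
  have hnot : ¬ LinearIndependent ℝ (fun j : T => c j) := by
    intro hli
    have h1 := hli.fintype_card_le_finrank
    rw [Fintype.card_coe] at h1
    omega
  rw [Fintype.not_linearIndependent_iff] at hnot
  obtain ⟨g, hg, i, hi⟩ := hnot
  refine ⟨fun j => if hj : j ∈ T then g ⟨j, hj⟩ else 0, ?_, i, i.2, ?_⟩
  · rw [← hg, ← Finset.sum_coe_sort T]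
    apply Finset.sum_congr rfl
    intro j _
    simp
  · simpa using hi

/-- Lemma A: at most four linearly dependent unit-ball vectors with small pairwise inner
products have a signed sum in the unit ball. -/
theorem dep_four (T : Finset ℕ) (c : ℕ → E) (hT : T.card ≤ 4) (hc : ∀ j ∈ T, ‖c j‖ ≤ 1)
    (hp : ∀ i ∈ T, ∀ j ∈ T, i ≠ j → 2 * |inner ℝ (c i) (c j)| < ‖c j‖ ^ 2)
    (μ : ℕ → ℝ) (hμ : ∑ j ∈ T, μ j • c j = 0) (hne : ∃ j ∈ T, μ j ≠ 0) :
    ∃ ζ : ℕ → ℝ, IsSign ζ ∧ ‖∑ j ∈ T, ζ j • c j‖ ≤ 1 := by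
  -- signs and absolute values of the coefficients
  set ζ : ℕ → ℝ := fun j => if 0 ≤ μ j then 1 else -1 with hζdef
  have hζ : IsSign ζ := by
    intro j
    by_cases h : 0 ≤ μ j <;> simp [hζdef, h]
  have hμζ : ∀ j, μ j = |μ j| * ζ j := by
    intro j
    by_cases h : 0 ≤ μ j
    · simp [hζdef, h, abs_of_nonneg h]
    · simp [hζdef, h, abs_of_neg (not_le.mp h)]
  refine ⟨ζ, hζ, ?_⟩
  obtain ⟨j1, hj1, hj1ne⟩ := hne
  have hTne : T.Nonempty := ⟨j1, hj1⟩
  obtain ⟨js, hjs, hmax⟩ := Finset.exists_max_image T (fun j => |μ j|) hTne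
  have hpos : 0 < |μ js| := lt_of_lt_of_le (abs_pos.mpr hj1ne) (hmax j1 hj1)
  -- the relation in terms of the signed vectors
  have hrel : ∑ j ∈ T, |μ j| • (ζ j • c j) = 0 := by
    rw [← hμ]
    apply Finset.sum_congr rfl
    intro j _
    rw [smul_smul, ← hμζ j]
  -- the signed sum as a combination with coefficients in the unit interval
  have hcomb : ∑ j ∈ T, ζ j • c j = ∑ j ∈ T, (1 - |μ j| / |μ js|) • (ζ j • c j) := by
    have h0 : ∑ j ∈ T, (|μ j| / |μ js|) • (ζ j • c j) = 0 := by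
      have : ∑ j ∈ T, (|μ j| / |μ js|) • (ζ j • c j)
          = (1 / |μ js|) • ∑ j ∈ T, |μ j| • (ζ j • c j) := by
        rw [Finset.smul_sum]
        apply Finset.sum_congr rfl
        intro j _
        rw [smul_smul (1 / |μ js|) (|μ j|)]
        congr 1
        ring
      rw [this, hrel, smul_zero]
    have : ∑ j ∈ T, (1 - |μ j| / |μ js|) • (ζ j • c j)
        = ∑ j ∈ T, ζ j • c j - ∑ j ∈ T, (|μ j| / |μ js|) • (ζ j • c j) := by
      rw [← Finset.sum_sub_distrib]
      apply Finset.sum_congr rfl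
      intro j _
      rw [sub_smul, one_smul]
    rw [this, h0, sub_zero]
  have hnorm : ‖∑ j ∈ T, ζ j • c j‖ ≤ (T.card : ℝ) - (∑ j ∈ T, |μ j|) / |μ js| := by
    rw [hcomb]
    calc ‖∑ j ∈ T, (1 - |μ j| / |μ js|) • (ζ j • c j)‖
        ≤ ∑ j ∈ T, ‖(1 - |μ j| / |μ js|) • (ζ j • c j)‖ := norm_sum_le _ _
      _ ≤ ∑ j ∈ T, (1 - |μ j| / |μ js|) := by
        apply Finset.sum_le_sum
        intro j hj
        have hle : |μ j| / |μ js| ≤ 1 := (div_le_one hpos).mpr (hmax j hj)
        rw [norm_smul, norm_smul, Real.norm_eq_abs, Real.norm_eq_abs, hζ.abs j, one_mul,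
          abs_of_nonneg (by linarith)]
        have := hc j hj
        nlinarith [norm_nonneg (c j)]
      _ = (T.card : ℝ) - (∑ j ∈ T, |μ j|) / |μ js| := by
        rw [Finset.sum_sub_distrib, Finset.sum_const, Finset.sum_div]
        simp
  by_cases hcard : T.card ≤ 1
  · -- a single vector
    have hT1 : T = {js} := by
      apply Finset.eq_singleton_iff_unique_mem.mpr
      refine ⟨hjs, fun x hx => ?_⟩
      exact Finset.card_le_one.mp hcard x hx js hjs
    rw [hT1, Finset.sum_singleton, norm_smul, Real.norm_eq_abs, hζ.abs js, one_mul]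
    exact hc js hjs
  · -- at least two vectors: the largest coefficient is at most a third of the total
    have hcard2 : 1 < T.card := not_le.mp hcard
    obtain ⟨i0, hi0, hi0ne⟩ := Finset.exists_mem_ne hcard2 js
    have hnpos : 0 < ‖c js‖ ^ 2 :=
      lt_of_le_of_lt (by positivity) (hp i0 hi0 js hjs hi0ne)
    have hin : ∑ j ∈ T, |μ j| * (ζ j * inner ℝ (c j) (c js)) = 0 := by
      have h1 : inner ℝ (∑ j ∈ T, |μ j| • (ζ j • c j)) (c js) = 0 := by
        rw [hrel, inner_zero_left]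
      rw [sum_inner] at h1
      rw [← h1]
      apply Finset.sum_congr rfl
      intro j _
      rw [real_inner_smul_left, real_inner_smul_left]
    rw [← Finset.add_sum_erase T _ hjs] at hin
    have hb : ∀ j ∈ T.erase js,
        |(|μ j| * (ζ j * inner ℝ (c j) (c js)))| ≤ |μ j| * (‖c js‖ ^ 2 / 2) := by
      intro j hj
      have hjT : j ∈ T := Finset.mem_of_mem_erase hj
      have hjne : j ≠ js := Finset.ne_of_mem_erase hj
      have h1 := hp j hjT js hjs hjne
      rw [abs_mul, abs_abs, abs_mul, hζ.abs j, one_mul]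
      have h3 : 0 ≤ |μ j| := abs_nonneg _
      nlinarith
    have hsum : |∑ j ∈ T.erase js, |μ j| * (ζ j * inner ℝ (c j) (c js))|
        ≤ (∑ j ∈ T.erase js, |μ j|) * (‖c js‖ ^ 2 / 2) := by
      rw [Finset.sum_mul]
      exact (Finset.abs_sum_le_sum_abs _ _).trans (Finset.sum_le_sum hb)
    have hself : |(|μ js| * (ζ js * inner ℝ (c js) (c js)))| = |μ js| * ‖c js‖ ^ 2 := by
      rw [real_inner_self_eq_norm_sq, abs_mul, abs_abs, abs_mul, hζ.abs js, one_mul,
        abs_of_nonneg (by positivity : (0 : ℝ) ≤ ‖c js‖ ^ 2)]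
    have hsplit : ∑ j ∈ T, |μ j| = |μ js| + ∑ j ∈ T.erase js, |μ j| :=
      (Finset.add_sum_erase T (fun j => |μ j|) hjs).symm
    have hA : |μ js| * ‖c js‖ ^ 2 ≤ (∑ j ∈ T.erase js, |μ j|) * (‖c js‖ ^ 2 / 2) := by
      rw [← hself]
      have : |μ js| * (ζ js * inner ℝ (c js) (c js))
          = -∑ j ∈ T.erase js, |μ j| * (ζ j * inner ℝ (c j) (c js)) := by linarith
      rw [this, abs_neg]
      exact hsum
    have hkey : 3 * |μ js| ≤ ∑ j ∈ T, |μ j| := by
      rw [hsplit]
      by_contra hcon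
      push Not at hcon
      nlinarith
    have hdiv : 3 ≤ (∑ j ∈ T, |μ j|) / |μ js| := (le_div_iff₀ hpos).mpr hkey
    have hT' : (T.card : ℝ) ≤ 4 := by exact_mod_cast hT
    linarith

end geom2

section mainInd

variable {E : Type*} [NormedAddCommGroup E] [InnerProductSpace ℝ E]

/-- the signed partial sum of the first `k` vectors, as a linear map in the signs -/
noncomputable def pre (v : ℕ → E) (k : ℕ) : (ℕ → ℝ) →ₗ[ℝ] E :=
  ∑ i ∈ range k, (LinearMap.proj i : (ℕ → ℝ) →ₗ[ℝ] ℝ).smulRight (v i)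

theorem pre_apply (v : ℕ → E) (k : ℕ) (f : ℕ → ℝ) :
    pre v k f = ∑ i ∈ range k, f i • v i := by
  simp [pre, LinearMap.sum_apply]

theorem pre_congr (v : ℕ → E) (k : ℕ) (f g : ℕ → ℝ) (h : ∀ i < k, f i = g i) :
    pre v k f = pre v k g := by
  rw [pre_apply, pre_apply]
  apply Finset.sum_congr rfl
  intro i hi
  rw [h i (Finset.mem_range.mp hi)]

/-- the invariant of the merging strategy -/
theorem merge_invariant (B : ℝ)
    (H : ∀ (J : Finset ℕ) (c : ℕ → E), (∀ j ∈ J, ‖c j‖ ≤ 1) → Unmergeable J c →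
      ∀ θ : ℕ → ℝ, IsSign θ → ‖∑ j ∈ J, θ j • c j‖ ^ 2 ≤ B)
    (v : ℕ → E) (hv : ∀ i, ‖v i‖ ≤ 1) :
    ∀ n : ℕ, ∃ (J : Finset ℕ) (s : ℕ → ℕ → ℝ),
      (∀ j ∈ J, ‖pre v n (s j)‖ ≤ 1) ∧
      ∀ θ : ℕ → ℝ, IsSign θ →
        (∀ i < n, (∑ j ∈ J, θ j • s j) i = 1 ∨ (∑ j ∈ J, θ j • s j) i = -1) ∧
        ∀ k ≤ n, ‖pre v k (∑ j ∈ J, θ j • s j)‖ ^ 2 ≤ B := by
  have hB : 0 ≤ B := by
    have h := H ∅ (fun _ => 0) (by simp) (by
      intro T hT hcard
      have : T = ∅ := Finset.subset_empty.mp hT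
      subst this
      simp at hcard) (fun _ => 1) isSign_one
    simpa using h
  intro n
  induction n with
  | zero =>
    refine ⟨∅, fun _ => 0, by simp, ?_⟩
    intro θ hθ
    refine ⟨fun i hi => absurd hi (Nat.not_lt_zero i), ?_⟩
    intro k hk
    have hk0 : k = 0 := Nat.le_zero.mp hk
    subst hk0
    simpa [pre_apply] using hB
  | succ n ih =>
    obtain ⟨J, s, hs, hI⟩ := ih
    obtain ⟨j0, hj0⟩ := Infinite.exists_notMem_finset J
    -- the family with the new vector as a cluster of its own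
    set s1 : ℕ → ℕ → ℝ :=
      fun j => if j = j0 then Pi.single n 1 else Function.update (s j) n 0 with hs1def
    have hs1old : ∀ j ∈ J, s1 j = Function.update (s j) n 0 := by
      intro j hj
      have hne : j ≠ j0 := fun h => hj0 (h ▸ hj)
      simp [hs1def, hne]
    have hs1new : s1 j0 = Pi.single n 1 := by simp [hs1def]
    have hnorm1 : ∀ j ∈ insert j0 J, ‖pre v (n + 1) (s1 j)‖ ≤ 1 := by
      intro j hj
      rcases Finset.mem_insert.mp hj with rfl | hj
      · rw [hs1new, pre_apply, Finset.sum_range_succ]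
        have h0 : ∑ i ∈ range n, (Pi.single n (1 : ℝ) : ℕ → ℝ) i • v i = 0 := by
          apply Finset.sum_eq_zero
          intro i hi
          have hne : i ≠ n := ne_of_lt (Finset.mem_range.mp hi)
          simp [hne]
        rw [h0]
        simpa using hv n
      · rw [hs1old j hj, pre_apply, Finset.sum_range_succ]
        have h0 : ∑ i ∈ range n, Function.update (s j) n 0 i • v i = pre v n (s j) := by
          rw [pre_apply]
          apply Finset.sum_congr rfl
          intro i hi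
          have hne : i ≠ n := ne_of_lt (Finset.mem_range.mp hi)
          rw [Function.update_of_ne hne]
        rw [h0]
        simpa using hs j hj
    -- values of the signed sums of the extended family
    have hval : ∀ θ : ℕ → ℝ, ∀ i : ℕ,
        (∑ j ∈ insert j0 J, θ j • s1 j) i
          = if i = n then θ j0 else (∑ j ∈ J, θ j • s j) i := by
      intro θ i
      rw [Finset.sum_insert hj0, hs1new]
      have hrest : (∑ j ∈ J, θ j • s1 j) i
          = if i = n then 0 else (∑ j ∈ J, θ j • s j) i := by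
        rw [Finset.sum_apply, Finset.sum_apply]
        by_cases hi : i = n
        · rw [if_pos hi]
          apply Finset.sum_eq_zero
          intro j hj
          rw [hs1old j hj, hi]
          simp
        · rw [if_neg hi]
          apply Finset.sum_congr rfl
          intro j hj
          rw [hs1old j hj]
          simp [Function.update_of_ne hi]
      rw [Pi.add_apply, hrest]
      by_cases hi : i = n
      · simp [hi]
      · simp [hi]
    have hI1 : ∀ θ : ℕ → ℝ, IsSign θ →
        (∀ i < n + 1, (∑ j ∈ insert j0 J, θ j • s1 j) i = 1 ∨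
          (∑ j ∈ insert j0 J, θ j • s1 j) i = -1) ∧
        ∀ k ≤ n, ‖pre v k (∑ j ∈ insert j0 J, θ j • s1 j)‖ ^ 2 ≤ B := by
      intro θ hθ
      obtain ⟨ha, hb⟩ := hI θ hθ
      constructor
      · intro i hi
        rw [hval θ i]
        by_cases hin : i = n
        · rw [if_pos hin]; exact hθ j0
        · rw [if_neg hin]
          exact ha i (by omega)
      · intro k hk
        have e : pre v k (∑ j ∈ insert j0 J, θ j • s1 j) = pre v k (∑ j ∈ J, θ j • s j) := by
          apply pre_congr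
          intro i hi
          rw [hval θ i, if_neg (by omega)]
        rw [e]
        exact hb k hk
    -- merge
    obtain ⟨J', s', hs', hU', hspan⟩ :=
      exists_merge (pre v (n + 1)) _ (insert j0 J) s1 le_rfl hnorm1
    refine ⟨J', s', hs', ?_⟩
    intro θ' hθ'
    obtain ⟨θ, hθ, e⟩ := hspan θ' hθ'
    obtain ⟨ha, hb⟩ := hI1 θ hθ
    rw [e]
    refine ⟨ha, ?_⟩
    intro k hk
    rcases Nat.lt_or_ge k (n + 1) with hlt | hge
    · exact hb k (by omega)
    · have hk1 : k = n + 1 := le_antisymm hk hge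
      subst hk1
      rw [← e, map_sum]
      have := H J' (fun j => pre v (n + 1) (s' j)) hs' hU' θ' hθ'
      simpa [map_smul] using this

/-- the merging strategy: signs with all partial sums bounded -/
theorem exists_signs (B : ℝ)
    (H : ∀ (J : Finset ℕ) (c : ℕ → E), (∀ j ∈ J, ‖c j‖ ≤ 1) → Unmergeable J c →
      ∀ θ : ℕ → ℝ, IsSign θ → ‖∑ j ∈ J, θ j • c j‖ ^ 2 ≤ B)
    (v : ℕ → E) (hv : ∀ i, ‖v i‖ ≤ 1) (N : ℕ) :
    ∃ ε : ℕ → ℝ, (∀ i < N, ε i = 1 ∨ ε i = -1) ∧
      ∀ k ≤ N, ‖∑ i ∈ range k, ε i • v i‖ ^ 2 ≤ B := by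
  obtain ⟨J, s, _, hI⟩ := merge_invariant B H v hv N
  obtain ⟨ha, hb⟩ := hI (fun _ => 1) isSign_one
  refine ⟨∑ j ∈ J, (1 : ℝ) • s j, ha, ?_⟩
  intro k hk
  rw [← pre_apply]
  exact hb k hk

end mainInd

end Vale.Agent.H70.Merge
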