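import Mathlib
import Vale.Agent.H70.Merge
import Vale.Agent.H70.MergeGeom

/-!
# Averaging over random roundings

* `avg_round`: if the coordinates of a random rounding have the prescribed means and are
  pairwise uncorrelated, some outcome of positive weight has squared rounding error at most
  the sum of `y (1 - y) ‖x‖ ^ 2`.
* `round_singles`: if nonnegative coefficients sum to at most two, the combination is within
  distance one of one of the vectors.
-/

namespace Vale.Agent.H70.Merge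

open Finset

section avg

variable {E : Type*} [NormedAddCommGroup E] [InnerProductSpace ℝ E]

/-- the squared norm of a linear combination as a quadratic form -/
theorem norm_sq_sum_smul {ι : Type*} [Fintype ι] (a : ι → ℝ) (x : ι → E) :
    ‖∑ j, a j • x j‖ ^ 2 = ∑ i, ∑ j, a i * a j * inner ℝ (x i) (x j) := by
  rw [← real_inner_self_eq_norm_sq, sum_inner]
  apply Finset.sum_congr rfl
  intro i _
  rw [inner_sum]
  apply Finset.sum_congr rfl
  intro j _
  rw [real_inner_smul_left, real_inner_smul_right]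
  ring

/-- Averaging over a random rounding with uncorrelated coordinates of the right means. -/
theorem avg_round {Ω ι : Type*} [Fintype Ω] [Fintype ι] [DecidableEq ι]
    (q : Ω → ℝ) (hq : ∀ ω, 0 ≤ q ω) (hq1 : ∑ ω, q ω = 1)
    (b : Ω → ι → ℝ) (x : ι → E) (y : ι → ℝ)
    (h1 : ∀ j, ∑ ω, q ω * b ω j = y j)
    (h2 : ∀ i j, i ≠ j → ∑ ω, q ω * (b ω i * b ω j) = y i * y j)
    (h3 : ∀ j, ∑ ω, q ω * (b ω j * b ω j) = y j) :
    ∃ ω, 0 < q ω ∧
      ‖∑ j, (b ω j - y j) • x j‖ ^ 2 ≤ ∑ j, y j * (1 - y j) * ‖x j‖ ^ 2 := by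
  -- the second moments of the rounding errors
  have hM : ∀ i j, ∑ ω, q ω * ((b ω i - y i) * (b ω j - y j))
      = if i = j then y i * (1 - y i) else 0 := by
    intro i j
    have e : ∑ ω, q ω * ((b ω i - y i) * (b ω j - y j))
        = ∑ ω, q ω * (b ω i * b ω j) - y j * ∑ ω, q ω * b ω i
          - y i * ∑ ω, q ω * b ω j + y i * y j * ∑ ω, q ω := by
      rw [Finset.mul_sum, Finset.mul_sum, Finset.mul_sum, ← Finset.sum_sub_distrib,
        ← Finset.sum_sub_distrib, ← Finset.sum_add_distrib]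
      apply Finset.sum_congr rfl
      intro ω _
      ring
    rw [e, h1 i, h1 j, hq1]
    by_cases hij : i = j
    · subst hij
      rw [if_pos rfl, h3 i]
      ring
    · rw [if_neg hij, h2 i j hij]
      ring
  -- the average of the squared norms
  have key : ∑ ω, q ω * ‖∑ j, (b ω j - y j) • x j‖ ^ 2
      = ∑ j, y j * (1 - y j) * ‖x j‖ ^ 2 := by
    have e1 : ∑ ω, q ω * ‖∑ j, (b ω j - y j) • x j‖ ^ 2
        = ∑ i, ∑ j, (∑ ω, q ω * ((b ω i - y i) * (b ω j - y j))) * inner ℝ (x i) (x j) := by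
      have : ∀ ω, q ω * ‖∑ j, (b ω j - y j) • x j‖ ^ 2
          = ∑ i, ∑ j, q ω * ((b ω i - y i) * (b ω j - y j)) * inner ℝ (x i) (x j) := by
        intro ω
        rw [norm_sq_sum_smul, Finset.mul_sum]
        apply Finset.sum_congr rfl
        intro i _
        rw [Finset.mul_sum]
        apply Finset.sum_congr rfl
        intro j _
        ring
      simp_rw [this]
      rw [Finset.sum_comm]
      apply Finset.sum_congr rfl
      intro i _
      rw [Finset.sum_comm]
      apply Finset.sum_congr rfl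
      intro j _
      rw [Finset.sum_mul]
    rw [e1]
    apply Finset.sum_congr rfl
    intro i _
    simp_rw [hM i]
    rw [Finset.sum_eq_single i]
    · rw [if_pos rfl, real_inner_self_eq_norm_sq]
    · intro j _ hji
      rw [if_neg (fun h => hji h.symm), zero_mul]
    · intro hi
      exact absurd (Finset.mem_univ i) hi
  by_contra hcon
  push Not at hcon
  -- some outcome has positive weight
  have hex : ∃ ω, 0 < q ω := by
    by_contra hno
    push Not at hno
    have h0 : ∑ ω, q ω = 0 := Finset.sum_eq_zero (fun ω _ => le_antisymm (hno ω) (hq ω))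
    rw [hq1] at h0
    exact one_ne_zero h0
  obtain ⟨ω0, hω0⟩ := hex
  have hpos : 0 < ∑ ω, q ω * (‖∑ j, (b ω j - y j) • x j‖ ^ 2
      - ∑ j, y j * (1 - y j) * ‖x j‖ ^ 2) := by
    apply Finset.sum_pos'
    · intro ω _
      rcases (hq ω).eq_or_lt with h0 | h0
      · rw [← h0, zero_mul]
      · exact le_of_lt (mul_pos h0 (sub_pos.mpr (hcon ω h0)))
    · exact ⟨ω0, Finset.mem_univ ω0, mul_pos hω0 (sub_pos.mpr (hcon ω0 hω0))⟩
  have hzero : ∑ ω, q ω * (‖∑ j, (b ω j - y j) • x j‖ ^ 2
      - ∑ j, y j * (1 - y j) * ‖x j‖ ^ 2) = 0 := by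
    rw [Finset.sum_congr rfl (fun ω _ => mul_sub (q ω) _ _), Finset.sum_sub_distrib, key,
      ← Finset.sum_mul, hq1, one_mul, sub_self]
  linarith

/-- rounding to a single vector when the coefficients sum to at most two -/
theorem round_singles (F : Finset ℕ) (hF : F.Nonempty) (c : ℕ → E) (hc : ∀ j ∈ F, ‖c j‖ ≤ 1)
    (y : ℕ → ℝ) (hy0 : ∀ j ∈ F, 0 ≤ y j) (hsum : ∑ j ∈ F, y j ≤ 2) :
    ∃ j ∈ F, ‖c j - ∑ i ∈ F, y i • c i‖ ≤ 1 := by
  by_contra hcon
  push Not at hcon
  set p : E := ∑ i ∈ F, y i • c i with hp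
  -- every member is far from `p`
  have hfar : ∀ j ∈ F, 2 * inner ℝ (c j) p < ‖p‖ ^ 2 := by
    intro j hj
    have h1 := hcon j hj
    have h2 : 1 < ‖c j - p‖ ^ 2 := by nlinarith [norm_nonneg (c j - p)]
    rw [norm_sub_sq_real] at h2
    have h3 := hc j hj
    have h4 : ‖c j‖ ^ 2 ≤ 1 := by nlinarith [norm_nonneg (c j)]
    linarith
  have hpp : ∑ j ∈ F, y j * (2 * inner ℝ (c j) p) = 2 * ‖p‖ ^ 2 := by
    have : inner ℝ p p = ∑ j ∈ F, y j * inner ℝ (c j) p := by
      conv_lhs => rw [hp]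
      rw [sum_inner]
      apply Finset.sum_congr rfl
      intro j _
      rw [real_inner_smul_left]
    rw [real_inner_self_eq_norm_sq] at this
    rw [this, Finset.mul_sum]
    apply Finset.sum_congr rfl
    intro j _
    ring
  have hle : ∑ j ∈ F, y j * (2 * inner ℝ (c j) p) ≤ ∑ j ∈ F, y j * ‖p‖ ^ 2 :=
    Finset.sum_le_sum (fun j hj => mul_le_mul_of_nonneg_left (le_of_lt (hfar j hj)) (hy0 j hj))
  rw [hpp, ← Finset.sum_mul] at hle
  have hp0 : 0 ≤ ‖p‖ ^ 2 := by positivity
  by_cases hall : ∀ j ∈ F, y j = 0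
  · -- then `p = 0` and every member is within distance one
    have hpz : p = 0 := by
      rw [hp]
      apply Finset.sum_eq_zero
      intro j hj
      rw [hall j hj, zero_smul]
    obtain ⟨j, hj⟩ := hF
    have := hcon j hj
    rw [hpz, sub_zero] at this
    linarith [hc j hj]
  · push Not at hall
    obtain ⟨j0, hj0, hj0ne⟩ := hall
    have hj0pos : 0 < y j0 := lt_of_le_of_ne (hy0 j0 hj0) (Ne.symm hj0ne)
    have hlt : ∑ j ∈ F, y j * (2 * inner ℝ (c j) p) < ∑ j ∈ F, y j * ‖p‖ ^ 2 := by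
      apply Finset.sum_lt_sum
      · intro j hj
        exact mul_le_mul_of_nonneg_left (le_of_lt (hfar j hj)) (hy0 j hj)
      · exact ⟨j0, hj0, mul_lt_mul_of_pos_left (hfar j0 hj0) hj0pos⟩
    rw [hpp, ← Finset.sum_mul] at hlt
    nlinarith

end avg

end Vale.Agent.H70.Merge
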