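import Mathlib
import Vale.Agent.H70.Merge
import Vale.Agent.H70.MergeGeom
import Vale.Agent.H70.MergeAvg

/-!
# Rounding four coefficients whose sum exceeds two

Four vectors of the unit ball with coefficients `y1, y2, y3, y4` in `[0, 1]`, `y4` the largest,
`y1 + y2 + y3 + y4 > 2`.  The first three coefficients are rounded independently (to `1` with
probability `y`), and the fourth is rounded down with conditional probability `gB`, which
vanishes when the first three are all rounded down, is uncorrelated with each of the first three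
roundings and has mean `1 - y4`.  The four roundings are then pairwise uncorrelated with means
`y`, and never all equal to `0`; `avg_round` gives a rounding, not identically `0`, with error at
most one.
-/

namespace Vale.Agent.H70.Merge

open Finset

section caseB

variable {E : Type*} [NormedAddCommGroup E] [InnerProductSpace ℝ E]

/-- the value `1` or `0` of a Boolean -/
def ind (b : Bool) : ℝ := if b then 1 else 0

/-- the probability of the outcome `b` of a coin with success probability `y` -/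
def coin (y : ℝ) (b : Bool) : ℝ := if b then y else 1 - y

/-- the conditional probability that the fourth coefficient is rounded down, given the
outcomes of the first three -/
noncomputable def gB (y1 y2 y3 y4 : ℝ) : Bool → Bool → Bool → ℝ
  | false, false, false => 0
  | true, false, false =>
      (1 - y4) * (y2 + y3) / (y1 + y2 + y3 - 1 + (1 - y1) * (1 - y2) * (1 - y3))
  | false, true, false =>
      (1 - y4) * (y1 + y3) / (y1 + y2 + y3 - 1 + (1 - y1) * (1 - y2) * (1 - y3))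
  | false, false, true =>
      (1 - y4) * (y1 + y2) / (y1 + y2 + y3 - 1 + (1 - y1) * (1 - y2) * (1 - y3))
  | _, _, _ =>
      (1 - y4) * (y1 + y2 + y3 - 1) / (y1 + y2 + y3 - 1 + (1 - y1) * (1 - y2) * (1 - y3))

/-- the weights of the sixteen outcomes -/
noncomputable def qB (y1 y2 y3 y4 : ℝ) (ω : Bool × Bool × Bool × Bool) : ℝ :=
  coin y1 ω.1 * coin y2 ω.2.1 * coin y3 ω.2.2.1 *
    (if ω.2.2.2 then 1 - gB y1 y2 y3 y4 ω.1 ω.2.1 ω.2.2.1 else gB y1 y2 y3 y4 ω.1 ω.2.1 ω.2.2.1)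

theorem caseB_ineq (a b u m : ℝ) (ha : 0 ≤ a) (ha1 : a ≤ 1) (hb : 0 ≤ b) (hb1 : b ≤ 1)
    (hu : 0 ≤ u) (hma : a ≤ m) (hmb : b ≤ m) (hs : 2 ≤ a + b + u + m) :
    (1 - m) * (a + b) ≤ a + b + u - 1 + (1 - a) * (1 - b) * (1 - u) := by
  have hsab : 0 ≤ a + b := add_nonneg ha hb
  have h4 : 0 ≤ u * (a * (1 - b) + b * (1 - a)) :=
    mul_nonneg hu (add_nonneg (mul_nonneg ha (sub_nonneg.mpr hb1))
      (mul_nonneg hb (sub_nonneg.mpr ha1)))
  have h2 : 0 ≤ (m - 2 + (a + b) + u) * (a + b) := mul_nonneg (by linarith) hsab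
  rcases le_total b a with hba | hab
  · have h1 : 0 ≤ (m - a) * (a + b) := mul_nonneg (by linarith) hsab
    have h3 : 0 ≤ b * (a - b) := mul_nonneg hb (by linarith)
    nlinarith
  · have h1 : 0 ≤ (m - b) * (a + b) := mul_nonneg (by linarith) hsab
    have h3 : 0 ≤ a * (b - a) := mul_nonneg ha (by linarith)
    nlinarith

theorem gB_mem (y1 y2 y3 y4 : ℝ) (h1 : 0 ≤ y1) (h1' : y1 ≤ 1) (h2 : 0 ≤ y2) (h2' : y2 ≤ 1)
    (h3 : 0 ≤ y3) (h3' : y3 ≤ 1) (h4' : y4 ≤ 1)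
    (hm1 : y1 ≤ y4) (hm2 : y2 ≤ y4) (hm3 : y3 ≤ y4) (hsum : 2 < y1 + y2 + y3 + y4)
    (b1 b2 b3 : Bool) :
    0 ≤ gB y1 y2 y3 y4 b1 b2 b3 ∧ gB y1 y2 y3 y4 b1 b2 b3 ≤ 1 := by
  have hκ : 0 < y1 + y2 + y3 - 1 := by linarith
  have hπ : 0 ≤ (1 - y1) * (1 - y2) * (1 - y3) :=
    mul_nonneg (mul_nonneg (by linarith) (by linarith)) (by linarith)
  have hd : 0 < y1 + y2 + y3 - 1 + (1 - y1) * (1 - y2) * (1 - y3) := by linarith
  have hz : 0 ≤ 1 - y4 := by linarith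
  have i1 := caseB_ineq y2 y3 y1 y4 h2 h2' h3 h3' h1 hm2 hm3 (by linarith)
  have i2 := caseB_ineq y1 y3 y2 y4 h1 h1' h3 h3' h2 hm1 hm3 (by linarith)
  have i3 := caseB_ineq y1 y2 y3 y4 h1 h1' h2 h2' h3 hm1 hm2 (by linarith)
  have i4 : (1 - y4) * (y1 + y2 + y3 - 1)
      ≤ y1 + y2 + y3 - 1 + (1 - y1) * (1 - y2) * (1 - y3) := by nlinarith
  cases b1 <;> cases b2 <;> cases b3 <;> simp only [gB] <;>
    first
    | exact ⟨le_refl 0, zero_le_one⟩
    | refine ⟨div_nonneg (mul_nonneg hz (by linarith)) (le_of_lt hd), ?_⟩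
      rw [div_le_one hd]
      linarith

theorem coin_nonneg (y : ℝ) (h0 : 0 ≤ y) (h1 : y ≤ 1) (b : Bool) : 0 ≤ coin y b := by
  cases b <;> simp only [coin] <;> simp <;> linarith

theorem qB_nonneg (y1 y2 y3 y4 : ℝ) (h1 : 0 ≤ y1) (h1' : y1 ≤ 1) (h2 : 0 ≤ y2) (h2' : y2 ≤ 1)
    (h3 : 0 ≤ y3) (h3' : y3 ≤ 1) (h4' : y4 ≤ 1)
    (hm1 : y1 ≤ y4) (hm2 : y2 ≤ y4) (hm3 : y3 ≤ y4) (hsum : 2 < y1 + y2 + y3 + y4)
    (ω : Bool × Bool × Bool × Bool) : 0 ≤ qB y1 y2 y3 y4 ω := by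
  obtain ⟨b1, b2, b3, b4⟩ := ω
  have hg := gB_mem y1 y2 y3 y4 h1 h1' h2 h2' h3 h3' h4' hm1 hm2 hm3 hsum b1 b2 b3
  have hc : 0 ≤ coin y1 b1 * coin y2 b2 * coin y3 b3 :=
    mul_nonneg (mul_nonneg (coin_nonneg y1 h1 h1' b1) (coin_nonneg y2 h2 h2' b2))
      (coin_nonneg y3 h3 h3' b3)
  simp only [qB]
  apply mul_nonneg hc
  cases b4
  · simpa using hg.1
  · simpa using hg.2

/-- the moment identities of the weights `qB` -/
theorem qB_moments (y1 y2 y3 y4 : ℝ)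
    (hd : y1 + y2 + y3 - 1 + (1 - y1) * (1 - y2) * (1 - y3) ≠ 0) :
    (∑ ω, qB y1 y2 y3 y4 ω = 1) ∧
    (∑ ω : Bool × Bool × Bool × Bool, qB y1 y2 y3 y4 ω * ind ω.1 = y1) ∧
    (∑ ω : Bool × Bool × Bool × Bool, qB y1 y2 y3 y4 ω * ind ω.2.1 = y2) ∧
    (∑ ω : Bool × Bool × Bool × Bool, qB y1 y2 y3 y4 ω * ind ω.2.2.1 = y3) ∧
    (∑ ω : Bool × Bool × Bool × Bool, qB y1 y2 y3 y4 ω * ind ω.2.2.2 = y4) ∧
    (∑ ω : Bool × Bool × Bool × Bool, qB y1 y2 y3 y4 ω * (ind ω.1 * ind ω.2.1) = y1 * y2) ∧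
    (∑ ω : Bool × Bool × Bool × Bool, qB y1 y2 y3 y4 ω * (ind ω.1 * ind ω.2.2.1) = y1 * y3) ∧
    (∑ ω : Bool × Bool × Bool × Bool, qB y1 y2 y3 y4 ω * (ind ω.1 * ind ω.2.2.2) = y1 * y4) ∧
    (∑ ω : Bool × Bool × Bool × Bool, qB y1 y2 y3 y4 ω * (ind ω.2.1 * ind ω.2.2.1)
      = y2 * y3) ∧
    (∑ ω : Bool × Bool × Bool × Bool, qB y1 y2 y3 y4 ω * (ind ω.2.1 * ind ω.2.2.2)
      = y2 * y4) ∧
    (∑ ω : Bool × Bool × Bool × Bool, qB y1 y2 y3 y4 ω * (ind ω.2.2.1 * ind ω.2.2.2)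
      = y3 * y4) := by
  refine ⟨?_, ?_, ?_, ?_, ?_, ?_, ?_, ?_, ?_, ?_, ?_⟩ <;>
    simp only [Fintype.sum_prod_type, Fintype.sum_bool, qB, gB, ind, coin] <;>
    simp <;> field_simp <;> ring

/-- Case B: four unit-ball vectors with coefficients in `[0, 1]` summing to more than two, the
fourth coefficient being the largest: some rounding to `0 / 1`, not all `0`, has error at most
one. -/
theorem round_caseB (c1 c2 c3 c4 : E) (hc1 : ‖c1‖ ≤ 1) (hc2 : ‖c2‖ ≤ 1) (hc3 : ‖c3‖ ≤ 1)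
    (hc4 : ‖c4‖ ≤ 1) (y1 y2 y3 y4 : ℝ) (h1 : 0 ≤ y1) (h1' : y1 ≤ 1) (h2 : 0 ≤ y2)
    (h2' : y2 ≤ 1) (h3 : 0 ≤ y3) (h3' : y3 ≤ 1) (h4' : y4 ≤ 1)
    (hm1 : y1 ≤ y4) (hm2 : y2 ≤ y4) (hm3 : y3 ≤ y4) (hsum : 2 < y1 + y2 + y3 + y4) :
    ∃ t1 t2 t3 t4 : ℝ, (t1 = 0 ∨ t1 = 1) ∧ (t2 = 0 ∨ t2 = 1) ∧ (t3 = 0 ∨ t3 = 1) ∧
      (t4 = 0 ∨ t4 = 1) ∧ (t1 = 1 ∨ t2 = 1 ∨ t3 = 1 ∨ t4 = 1) ∧
      ‖(t1 - y1) • c1 + (t2 - y2) • c2 + (t3 - y3) • c3 + (t4 - y4) • c4‖ ≤ 1 := by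
  have h4 : 0 ≤ y4 := le_trans h1 hm1
  have hπ : 0 ≤ (1 - y1) * (1 - y2) * (1 - y3) :=
    mul_nonneg (mul_nonneg (by linarith) (by linarith)) (by linarith)
  have hd : y1 + y2 + y3 - 1 + (1 - y1) * (1 - y2) * (1 - y3) ≠ 0 := by
    have : 0 < y1 + y2 + y3 - 1 + (1 - y1) * (1 - y2) * (1 - y3) := by linarith
    exact ne_of_gt this
  obtain ⟨m0, m1, m2, m3, m4, m12, m13, m14, m23, m24, m34⟩ := qB_moments y1 y2 y3 y4 hd
  have hsq : ∀ b : Bool, ind b * ind b = ind b := by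
    intro b
    cases b <;> simp [ind]
  obtain ⟨ω, hω, hbound⟩ := avg_round (E := E) (qB y1 y2 y3 y4)
    (qB_nonneg y1 y2 y3 y4 h1 h1' h2 h2' h3 h3' h4' hm1 hm2 hm3 hsum) m0
    (fun ω => ![ind ω.1, ind ω.2.1, ind ω.2.2.1, ind ω.2.2.2]) ![c1, c2, c3, c4]
    ![y1, y2, y3, y4]
    (by
      intro j
      fin_cases j
      · simpa using m1
      · simpa using m2
      · simpa using m3
      · simpa using m4)
    (by
      intro i j hij
      fin_cases i <;> fin_cases j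
      · exact absurd rfl hij
      · simpa using m12
      · simpa using m13
      · simpa using m14
      · simpa [mul_comm] using m12
      · exact absurd rfl hij
      · simpa using m23
      · simpa using m24
      · simpa [mul_comm] using m13
      · simpa [mul_comm] using m23
      · exact absurd rfl hij
      · simpa using m34
      · simpa [mul_comm] using m14
      · simpa [mul_comm] using m24
      · simpa [mul_comm] using m34
      · exact absurd rfl hij)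
    (by
      intro j
      fin_cases j
      · simpa [hsq] using m1
      · simpa [hsq] using m2
      · simpa [hsq] using m3
      · simpa [hsq] using m4)
  obtain ⟨b1, b2, b3, b4⟩ := ω
  rw [Fin.sum_univ_four, Fin.sum_univ_four] at hbound
  simp only [Matrix.cons_val_zero, Matrix.cons_val_one, Matrix.cons_val_two,
    Matrix.cons_val_three, Matrix.head_cons, Matrix.tail_cons] at hbound
  have hquarter : ∀ (y : ℝ) (c : E), 0 ≤ y → y ≤ 1 → ‖c‖ ≤ 1 →
      y * (1 - y) * ‖c‖ ^ 2 ≤ 1 / 4 := by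
    intro y c hy0 hy1 hc
    have hn : ‖c‖ ^ 2 ≤ 1 := by nlinarith [norm_nonneg c]
    have hy : y * (1 - y) ≤ 1 / 4 := by nlinarith [sq_nonneg (y - 1 / 2)]
    have h := mul_le_mul hy hn (by positivity) (by norm_num : (0 : ℝ) ≤ 1 / 4)
    linarith
  have hle : ‖(ind b1 - y1) • c1 + (ind b2 - y2) • c2 + (ind b3 - y3) • c3
      + (ind b4 - y4) • c4‖ ^ 2 ≤ 1 := by
    have q1 := hquarter y1 c1 h1 h1' hc1
    have q2 := hquarter y2 c2 h2 h2' hc2
    have q3 := hquarter y3 c3 h3 h3' hc3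
    have q4 := hquarter y4 c4 h4 h4' hc4
    linarith
  have hind : ∀ b : Bool, ind b = 0 ∨ ind b = 1 := by
    intro b
    cases b <;> simp [ind]
  refine ⟨ind b1, ind b2, ind b3, ind b4, hind b1, hind b2, hind b3, hind b4, ?_, ?_⟩
  · by_contra hnone
    push Not at hnone
    obtain ⟨n1, n2, n3, n4⟩ := hnone
    have e1 : b1 = false := by
      cases b1
      · rfl
      · exact absurd (by simp [ind]) n1
    have e2 : b2 = false := by
      cases b2
      · rfl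
      · exact absurd (by simp [ind]) n2
    have e3 : b3 = false := by
      cases b3
      · rfl
      · exact absurd (by simp [ind]) n3
    have e4 : b4 = false := by
      cases b4
      · rfl
      · exact absurd (by simp [ind]) n4
    subst e1 e2 e3 e4
    simp [qB, gB] at hω
  · nlinarith [norm_nonneg ((ind b1 - y1) • c1 + (ind b2 - y2) • c2 + (ind b3 - y3) • c3
      + (ind b4 - y4) • c4)]

end caseB

end Vale.Agent.H70.Merge
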