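import Mathlib
import Vale.Agent.H70.Merge
import Vale.Agent.H70.MergeGeom

/-!
# Unmergeable families in dimension at most three

In a real inner product space of dimension at most `r ≤ 3`, an unmergeable family in the
unit ball has at most `r` members, and all its signed sums have squared norm at most
`r (r + 1) / 2`.
-/

namespace Vale.Agent.H70.Merge

open Finset

section dim

variable {E : Type*} [NormedAddCommGroup E] [InnerProductSpace ℝ E]

/-- in dimension at most `r ≤ 3` an unmergeable family in the unit ball has at most `r`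
members -/
theorem Unmergeable.card_le [FiniteDimensional ℝ E] {r : ℕ} (hr1 : 1 ≤ r) (hr3 : r ≤ 3)
    (hd : Module.finrank ℝ E ≤ r) {J : Finset ℕ} {c : ℕ → E}
    (hc : ∀ j ∈ J, ‖c j‖ ≤ 1) (hU : Unmergeable J c) : J.card ≤ r := by
  by_contra hcon
  have hlt : r + 1 ≤ J.card := by omega
  obtain ⟨T, hTJ, hTcard⟩ := Finset.exists_subset_card_eq hlt
  obtain ⟨μ, hμ, hne⟩ := exists_dep T c (by omega)
  obtain ⟨ζ, hζ, hle⟩ := dep_four T c (by omega) (fun j hj => hc j (hTJ hj))
    (fun i hi j hj hij => hU.inner_lt hc (hTJ hi) (hTJ hj) hij) μ hμ hne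
  have := hU T hTJ (by omega) ζ hζ
  linarith

/-- in dimension at most `r ≤ 3` every signed sum of an unmergeable family in the unit ball
has squared norm at most `r (r + 1) / 2` -/
theorem Unmergeable.sq_norm_le [FiniteDimensional ℝ E] {r : ℕ} (hr1 : 1 ≤ r) (hr3 : r ≤ 3)
    (hd : Module.finrank ℝ E ≤ r) {J : Finset ℕ} {c : ℕ → E}
    (hc : ∀ j ∈ J, ‖c j‖ ≤ 1) (hU : Unmergeable J c) (θ : ℕ → ℝ) (hθ : IsSign θ) :
    ‖∑ j ∈ J, θ j • c j‖ ^ 2 ≤ (r : ℝ) * (r + 1) / 2 := by
  have h1 := sq_norm_sum_le J c hc (fun i hi j hj hij => by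
    have h2 := hU.inner_lt hc hi hj hij
    have h3 := hc j hj
    nlinarith [norm_nonneg (c j)]) θ hθ
  have h4 : (J.card : ℝ) ≤ r := by exact_mod_cast hU.card_le hr1 hr3 hd hc
  have h5 : (0 : ℝ) ≤ J.card := Nat.cast_nonneg _
  nlinarith

end dim

end Vale.Agent.H70.Merge
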