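import Mathlib
import Vale.Agent.H70.Merge
import Vale.Agent.H70.MergeGeom
import Vale.Agent.H70.MergeAvg
import Vale.Agent.H70.MergeCaseB

/-!
# Five linearly dependent vectors of the unit ball can be merged

* `round_four`: four unit-ball vectors with coefficients in `[0, 1]` admit a rounding of the
  coefficients to `0 / 1`, not identically `0`, with error of norm at most one.
* `dep_five`: five linearly dependent unit-ball vectors have a signed sum of at least two
  members of norm at most one.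
* `Unmergeable.sq_norm_le_ten`: in dimension at most four an unmergeable family in the unit
  ball has at most four members and all its signed sums have squared norm at most ten.
-/

namespace Vale.Agent.H70.Merge

open Finset

section five

variable {E : Type*} [NormedAddCommGroup E] [InnerProductSpace ℝ E]

/-- Four unit-ball vectors with coefficients in `[0, 1]`: some rounding of the coefficients to
`0 / 1`, not identically `0`, changes the combination by a vector of norm at most one. -/
theorem round_four (F : Finset ℕ) (hF : F.card = 4) (c : ℕ → E) (hc : ∀ j ∈ F, ‖c j‖ ≤ 1)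
    (y : ℕ → ℝ) (hy0 : ∀ j ∈ F, 0 ≤ y j) (hy1 : ∀ j ∈ F, y j ≤ 1) :
    ∃ τ : ℕ → ℝ, (∀ j, τ j = 0 ∨ τ j = 1) ∧ (∃ j ∈ F, τ j = 1) ∧
      ‖∑ j ∈ F, (τ j - y j) • c j‖ ≤ 1 := by
  have hFne : F.Nonempty := by
    rw [← Finset.card_pos]; omega
  by_cases hs : ∑ j ∈ F, y j ≤ 2
  · obtain ⟨j0, hj0, hle⟩ := round_singles F hFne c hc y hy0 hs
    refine ⟨fun j => if j = j0 then 1 else 0, ?_, ⟨j0, hj0, by simp⟩, ?_⟩
    · intro j
      by_cases h : j = j0 <;> simp [h]
    · have e : ∑ j ∈ F, ((if j = j0 then (1 : ℝ) else 0) - y j) • c j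
          = c j0 - ∑ i ∈ F, y i • c i := by
        have e1 : ∀ j ∈ F, ((if j = j0 then (1 : ℝ) else 0) - y j) • c j
            = (if j = j0 then c j else 0) - y j • c j := by
          intro j _
          by_cases h : j = j0 <;> simp [h, sub_smul]
        rw [Finset.sum_congr rfl e1, Finset.sum_sub_distrib, Finset.sum_ite_eq' F j0,
          if_pos hj0]
      rw [e]
      exact hle
  · push Not at hs
    obtain ⟨l, hl, hmax⟩ := Finset.exists_max_image F y hFne
    have hcard3 : (F.erase l).card = 3 := by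
      rw [Finset.card_erase_of_mem hl, hF]
    obtain ⟨i, j, k, hij, hik, hjk, hE⟩ := Finset.card_eq_three.mp hcard3
    have hiE : i ∈ F.erase l := by rw [hE]; simp
    have hjE : j ∈ F.erase l := by rw [hE]; simp
    have hkE : k ∈ F.erase l := by rw [hE]; simp
    have hi : i ∈ F := Finset.mem_of_mem_erase hiE
    have hj : j ∈ F := Finset.mem_of_mem_erase hjE
    have hk : k ∈ F := Finset.mem_of_mem_erase hkE
    have hil : i ≠ l := Finset.ne_of_mem_erase hiE
    have hjl : j ≠ l := Finset.ne_of_mem_erase hjE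
    have hkl : k ≠ l := Finset.ne_of_mem_erase hkE
    have hsumE : ∀ f : ℕ → E, ∑ n ∈ F, f n = f l + (f i + (f j + f k)) := by
      intro f
      rw [← Finset.add_sum_erase F f hl, hE, Finset.sum_insert (by simp [hij, hik]),
        Finset.sum_insert (by simp [hjk]), Finset.sum_singleton]
    have hsumR : ∑ n ∈ F, y n = y l + (y i + (y j + y k)) := by
      rw [← Finset.add_sum_erase F y hl, hE, Finset.sum_insert (by simp [hij, hik]),
        Finset.sum_insert (by simp [hjk]), Finset.sum_singleton]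
    obtain ⟨t1, t2, t3, t4, ht1, ht2, ht3, ht4, hone, hnorm⟩ :=
      round_caseB (c i) (c j) (c k) (c l) (hc i hi) (hc j hj) (hc k hk) (hc l hl)
        (y i) (y j) (y k) (y l) (hy0 i hi) (hy1 i hi) (hy0 j hj) (hy1 j hj) (hy0 k hk)
        (hy1 k hk) (hy1 l hl) (hmax i hi) (hmax j hj) (hmax k hk) (by linarith)
    set τ : ℕ → ℝ := fun n =>
      if n = i then t1 else if n = j then t2 else if n = k then t3 else if n = l then t4 else 0
      with hτ
    have hτi : τ i = t1 := by simp [hτ]
    have hτj : τ j = t2 := by simp [hτ, Ne.symm hij]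
    have hτk : τ k = t3 := by simp [hτ, Ne.symm hik, Ne.symm hjk]
    have hτl : τ l = t4 := by simp [hτ, Ne.symm hil, Ne.symm hjl, Ne.symm hkl]
    refine ⟨τ, ?_, ?_, ?_⟩
    · intro n
      simp only [hτ]
      by_cases h1 : n = i
      · simp only [h1, if_true]; exact ht1
      · by_cases h2 : n = j
        · simp only [h2, if_true]; simpa [Ne.symm hij] using ht2
        · by_cases h3 : n = k
          · simp only [h3, if_true]; simpa [Ne.symm hik, Ne.symm hjk] using ht3
          · by_cases h4 : n = l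
            · simp only [h4, if_true]
              simpa [Ne.symm hil, Ne.symm hjl, Ne.symm hkl] using ht4
            · simp [h1, h2, h3, h4]
    · rcases hone with h | h | h | h
      · exact ⟨i, hi, by rw [hτi]; exact h⟩
      · exact ⟨j, hj, by rw [hτj]; exact h⟩
      · exact ⟨k, hk, by rw [hτk]; exact h⟩
      · exact ⟨l, hl, by rw [hτl]; exact h⟩
    · rw [hsumE, hτi, hτj, hτk, hτl]
      have e : (t4 - y l) • c l + ((t1 - y i) • c i + ((t2 - y j) • c j + (t3 - y k) • c k))
          = (t1 - y i) • c i + (t2 - y j) • c j + (t3 - y k) • c k + (t4 - y l) • c l := by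
        abel
      rw [e]
      exact hnorm

/-- Five linearly dependent unit-ball vectors: some signed sum of at least two of them has
norm at most one. -/
theorem dep_five (T : Finset ℕ) (hT : T.card = 5) (c : ℕ → E) (hc : ∀ j ∈ T, ‖c j‖ ≤ 1)
    (μ : ℕ → ℝ) (hμ : ∑ j ∈ T, μ j • c j = 0) (hne : ∃ j ∈ T, μ j ≠ 0) :
    ∃ S : Finset ℕ, S ⊆ T ∧ 2 ≤ S.card ∧
      ∃ ζ : ℕ → ℝ, IsSign ζ ∧ ‖∑ j ∈ S, ζ j • c j‖ ≤ 1 := by
  set ζ : ℕ → ℝ := fun j => if 0 ≤ μ j then 1 else -1 with hζdef
  have hζ : IsSign ζ := by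
    intro j
    by_cases h : 0 ≤ μ j <;> simp [hζdef, h]
  have hμζ : ∀ j, μ j = |μ j| * ζ j := by
    intro j
    by_cases h : 0 ≤ μ j
    · simp [hζdef, h, abs_of_nonneg h]
    · simp [hζdef, h, abs_of_neg (not_le.mp h)]
  obtain ⟨j1, hj1, hj1ne⟩ := hne
  obtain ⟨a, ha, hmax⟩ := Finset.exists_max_image T (fun j => |μ j|) ⟨j1, hj1⟩
  have hpos : 0 < |μ a| := lt_of_lt_of_le (abs_pos.mpr hj1ne) (hmax j1 hj1)
  set F : Finset ℕ := T.erase a with hFdef
  have hFcard : F.card = 4 := by
    rw [hFdef, Finset.card_erase_of_mem ha, hT]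
  have hFT : ∀ j ∈ F, j ∈ T := fun j hj => Finset.mem_of_mem_erase hj
  set y : ℕ → ℝ := fun j => |μ j| / |μ a| with hydef
  have hy0 : ∀ j ∈ F, 0 ≤ y j := fun j _ => div_nonneg (abs_nonneg _) (le_of_lt hpos)
  have hy1 : ∀ j ∈ F, y j ≤ 1 := fun j hj => (div_le_one hpos).mpr (hmax j (hFT j hj))
  have hrel : ζ a • c a + ∑ j ∈ F, y j • (ζ j • c j) = 0 := by
    have h0 : ∑ j ∈ T, y j • (ζ j • c j) = 0 := by
      have : ∑ j ∈ T, y j • (ζ j • c j) = (1 / |μ a|) • ∑ j ∈ T, μ j • c j := by
        rw [Finset.smul_sum]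
        apply Finset.sum_congr rfl
        intro j _
        rw [smul_smul, smul_smul]
        congr 1
        simp only [hydef]
        rw [hμζ j, abs_mul, hζ.abs j, mul_one, abs_abs]
        ring
      rw [this, hμ, smul_zero]
    rw [← Finset.add_sum_erase T _ ha] at h0
    have h1 : y a = 1 := by
      simp only [hydef]
      exact div_self (ne_of_gt hpos)
    rw [h1, one_smul] at h0
    exact h0
  obtain ⟨τ, hτ, ⟨j0, hj0, hτj0⟩, hnorm⟩ := round_four F hFcard (fun j => ζ j • c j)
    (fun j hj => by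
      rw [norm_smul, Real.norm_eq_abs, hζ.abs j, one_mul]
      exact hc j (hFT j hj)) y hy0 hy1
  have e : ∑ j ∈ F, (τ j - y j) • (ζ j • c j)
      = ζ a • c a + ∑ j ∈ F, τ j • (ζ j • c j) := by
    have e1 : ∑ j ∈ F, (τ j - y j) • (ζ j • c j)
        = ∑ j ∈ F, τ j • (ζ j • c j) - ∑ j ∈ F, y j • (ζ j • c j) := by
      rw [← Finset.sum_sub_distrib]
      apply Finset.sum_congr rfl
      intro j _
      rw [sub_smul]
    have e2 : ∑ j ∈ F, y j • (ζ j • c j) = -(ζ a • c a) := by
      rw [eq_neg_iff_add_eq_zero, add_comm]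
      exact hrel
    rw [e1, e2]
    abel
  rw [e] at hnorm
  set G : Finset ℕ := F.filter (fun j => τ j = 1) with hG
  have haG : a ∉ G := fun h => (Finset.notMem_erase a T) (Finset.mem_of_mem_filter a h)
  have hj0G : j0 ∈ G := Finset.mem_filter.mpr ⟨hj0, hτj0⟩
  refine ⟨insert a G, ?_, ?_, ζ, hζ, ?_⟩
  · intro j hj
    rcases Finset.mem_insert.mp hj with rfl | hj
    · exact ha
    · exact hFT j (Finset.mem_of_mem_filter j hj)
  · rw [Finset.card_insert_of_notMem haG]
    have : 0 < G.card := Finset.card_pos.mpr ⟨j0, hj0G⟩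
    omega
  · rw [Finset.sum_insert haG]
    have hGsum : ∑ j ∈ G, ζ j • c j = ∑ j ∈ F, τ j • (ζ j • c j) := by
      rw [hG, Finset.sum_filter]
      apply Finset.sum_congr rfl
      intro j _
      rcases hτ j with h | h
      · simp [h]
      · simp [h]
    rw [hGsum]
    exact hnorm

/-- in dimension at most four an unmergeable family in the unit ball has at most four
members -/
theorem Unmergeable.card_le_four [FiniteDimensional ℝ E] (hd : Module.finrank ℝ E ≤ 4)
    {J : Finset ℕ} {c : ℕ → E} (hc : ∀ j ∈ J, ‖c j‖ ≤ 1) (hU : Unmergeable J c) :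
    J.card ≤ 4 := by
  by_contra hcon
  obtain ⟨T, hTJ, hTcard⟩ := Finset.exists_subset_card_eq (show 5 ≤ J.card by omega)
  obtain ⟨μ, hμ, hne⟩ := exists_dep T c (by omega)
  obtain ⟨S, hST, hScard, ζ, hζ, hle⟩ :=
    dep_five T hTcard c (fun j hj => hc j (hTJ hj)) μ hμ hne
  have := hU S (hST.trans hTJ) hScard ζ hζ
  linarith

/-- in dimension at most four every signed sum of an unmergeable family in the unit ball has
squared norm at most ten -/
theorem Unmergeable.sq_norm_le_ten [FiniteDimensional ℝ E]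
    (hd : Module.finrank ℝ E ≤ 4) {J : Finset ℕ} {c : ℕ → E}
    (hc : ∀ j ∈ J, ‖c j‖ ≤ 1) (hU : Unmergeable J c) (θ : ℕ → ℝ) (hθ : IsSign θ) :
    ‖∑ j ∈ J, θ j • c j‖ ^ 2 ≤ 10 := by
  have h1 := sq_norm_sum_le J c hc (fun i hi j hj hij => by
    have h2 := hU.inner_lt hc hi hj hij
    have h3 := hc j hj
    nlinarith [norm_nonneg (c j)]) θ hθ
  have h4 : (J.card : ℝ) ≤ 4 := by exact_mod_cast hU.card_le_four hd hc
  have h5 : (0 : ℝ) ≤ J.card := Nat.cast_nonneg _
  nlinarith

end five

end Vale.Agent.H70.Merge
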