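import Mathlib
import Vale.Agent.H70.Merge
import Vale.Agent.H70.MergeGeom

/-!
# Rounding a linear relation

* `exists_rounding`: the coefficients of a combination can be rounded to `0, 1, -1` one at a
  time, with squared error at most the sum of `|y| (1 - |y|) ‖c‖ ^ 2`.
* `exists_two_extreme`: among at least `dim + 2` vectors there is a linear relation with
  coefficients in `[-1, 1]`, two of which have absolute value one.
-/

namespace Vale.Agent.H70.Merge

open Finset

section six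

variable {E : Type*} [NormedAddCommGroup E] [InnerProductSpace ℝ E]

/-- rounding one coefficient `y ∈ [-1, 1]` to `0` or to its sign -/
theorem round_one (a c : E) (y : ℝ) (hy : |y| ≤ 1) :
    ∃ τ : ℝ, (τ = 0 ∨ τ = 1 ∨ τ = -1) ∧
      ‖a + (τ - y) • c‖ ^ 2 ≤ ‖a‖ ^ 2 + |y| * (1 - |y|) * ‖c‖ ^ 2 := by
  have e : ∀ t : ℝ, ‖a + t • c‖ ^ 2 = ‖a‖ ^ 2 + 2 * t * inner ℝ a c + t ^ 2 * ‖c‖ ^ 2 := by
    intro t
    rw [norm_add_sq_real, real_inner_smul_right, norm_smul, Real.norm_eq_abs, mul_pow, sq_abs]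
    ring
  -- a polynomial form of the averaging identity
  have avg : ∀ (A P n u : ℝ), 0 ≤ u → u ≤ 1 →
      A + u * (1 - u) * n < A + 2 * (0 - u) * P + (0 - u) ^ 2 * n →
      A + 2 * (1 - u) * P + (1 - u) ^ 2 * n ≤ A + u * (1 - u) * n := by
    intro A P n u hu0 hu1 h
    by_contra hcon
    push Not at hcon
    have key : (1 - u) * (A + 2 * (0 - u) * P + (0 - u) ^ 2 * n - (A + u * (1 - u) * n))
        + u * (A + 2 * (1 - u) * P + (1 - u) ^ 2 * n - (A + u * (1 - u) * n)) = 0 := by ring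
    have h1 : 0 ≤ (1 - u) * (A + 2 * (0 - u) * P + (0 - u) ^ 2 * n - (A + u * (1 - u) * n)) :=
      mul_nonneg (by linarith) (by linarith)
    rcases hu0.eq_or_lt with h0 | h0
    · subst h0
      linarith
    · have h3 : 0 < u * (A + 2 * (1 - u) * P + (1 - u) ^ 2 * n - (A + u * (1 - u) * n)) :=
        mul_pos h0 (by linarith)
      linarith
  rcases le_total 0 y with hpos | hneg
  · rw [abs_of_nonneg hpos] at hy ⊢
    by_cases hc : ‖a + (0 - y) • c‖ ^ 2 ≤ ‖a‖ ^ 2 + y * (1 - y) * ‖c‖ ^ 2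
    · exact ⟨0, Or.inl rfl, hc⟩
    · refine ⟨1, Or.inr (Or.inl rfl), ?_⟩
      rw [e] at hc ⊢
      push Not at hc
      exact avg _ _ _ y hpos hy hc
  · rw [abs_of_nonpos hneg] at hy ⊢
    by_cases hc : ‖a + (0 - y) • c‖ ^ 2 ≤ ‖a‖ ^ 2 + -y * (1 - -y) * ‖c‖ ^ 2
    · exact ⟨0, Or.inl rfl, hc⟩
    · refine ⟨-1, Or.inr (Or.inr rfl), ?_⟩
      rw [e] at hc ⊢
      push Not at hc
      have hy' : 0 ≤ -y := by linarith
      have h := avg (‖a‖ ^ 2) (-inner ℝ a c) (‖c‖ ^ 2) (-y) hy' hy (by linarith)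
      linarith

/-- rounding all coefficients of a combination -/
theorem exists_rounding (F : Finset ℕ) (c : ℕ → E) (y : ℕ → ℝ) (hy : ∀ j ∈ F, |y j| ≤ 1)
    (x : E) :
    ∃ τ : ℕ → ℝ, (∀ j, τ j = 0 ∨ τ j = 1 ∨ τ j = -1) ∧
      ‖x + ∑ j ∈ F, (τ j - y j) • c j‖ ^ 2
        ≤ ‖x‖ ^ 2 + ∑ j ∈ F, |y j| * (1 - |y j|) * ‖c j‖ ^ 2 := by
  induction F using Finset.induction_on with
  | empty => exact ⟨fun _ => 0, fun _ => Or.inl rfl, by simp⟩
  | insert i F hi ih =>
    obtain ⟨τ, hτ, hb⟩ := ih (fun j hj => hy j (Finset.mem_insert_of_mem hj))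
    obtain ⟨t, ht, hb1⟩ := round_one (x + ∑ j ∈ F, (τ j - y j) • c j) (c i) (y i)
      (hy i (Finset.mem_insert_self i F))
    refine ⟨Function.update τ i t, ?_, ?_⟩
    · intro j
      by_cases hj : j = i
      · subst hj; rw [Function.update_self]; exact ht
      · rw [Function.update_of_ne hj]; exact hτ j
    · rw [Finset.sum_insert hi, Finset.sum_insert hi, Function.update_self]
      have hsum : ∑ j ∈ F, (Function.update τ i t j - y j) • c j
          = ∑ j ∈ F, (τ j - y j) • c j := by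
        apply Finset.sum_congr rfl
        intro j hj
        have hne : j ≠ i := fun h => hi (h ▸ hj)
        rw [Function.update_of_ne hne]
      rw [hsum]
      have hre : x + ((t - y i) • c i + ∑ j ∈ F, (τ j - y j) • c j)
          = x + ∑ j ∈ F, (τ j - y j) • c j + (t - y i) • c i := by abel
      rw [hre]
      linarith

end six

section vert

variable {E : Type*} [NormedAddCommGroup E] [InnerProductSpace ℝ E]

/-- among at least `dim + 2` vectors there is a linear relation with all coefficients in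
`[-1, 1]` and two coefficients of absolute value one -/
theorem exists_two_extreme [FiniteDimensional ℝ E] (T : Finset ℕ) (c : ℕ → E)
    (h : Module.finrank ℝ E + 2 ≤ T.card) :
    ∃ w : ℕ → ℝ, ∑ j ∈ T, w j • c j = 0 ∧ (∀ j ∈ T, |w j| ≤ 1) ∧
      ∃ a ∈ T, ∃ b ∈ T, a ≠ b ∧ |w a| = 1 ∧ |w b| = 1 := by
  -- a first relation, normalised at a coefficient of largest absolute value
  obtain ⟨μ, hμ, j1, hj1, hj1ne⟩ := exists_dep T c (by omega)
  obtain ⟨a, ha, hmax⟩ := Finset.exists_max_image T (fun j => |μ j|) ⟨j1, hj1⟩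
  have hpos : 0 < |μ a| := lt_of_lt_of_le (abs_pos.mpr hj1ne) (hmax j1 hj1)
  set w0 : ℕ → ℝ := fun j => μ j / |μ a| with hw0
  have hw0sum : ∑ j ∈ T, w0 j • c j = 0 := by
    have : ∑ j ∈ T, w0 j • c j = (1 / |μ a|) • ∑ j ∈ T, μ j • c j := by
      rw [Finset.smul_sum]
      apply Finset.sum_congr rfl
      intro j _
      rw [smul_smul (1 / |μ a|) (μ j)]
      congr 1
      simp only [hw0]
      ring
    rw [this, hμ, smul_zero]
  have hw0le : ∀ j ∈ T, |w0 j| ≤ 1 := by
    intro j hj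
    simp only [hw0]
    rw [abs_div, abs_abs]
    exact (div_le_one hpos).mpr (hmax j hj)
  have hw0a : |w0 a| = 1 := by
    simp only [hw0]
    rw [abs_div, abs_abs]
    exact div_self (ne_of_gt hpos)
  -- a second relation that does not involve `a`
  obtain ⟨ν0, hν0, j2, hj2, hj2ne⟩ := exists_dep (T.erase a) c (by
    rw [Finset.card_erase_of_mem ha]; omega)
  set ν : ℕ → ℝ := fun j => if j = a then 0 else ν0 j with hν
  have hνa : ν a = 0 := by simp [hν]
  have hνsum : ∑ j ∈ T, ν j • c j = 0 := by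
    rw [← Finset.add_sum_erase T _ ha, hνa, zero_smul, zero_add, ← hν0]
    apply Finset.sum_congr rfl
    intro j hj
    have hne : j ≠ a := Finset.ne_of_mem_erase hj
    simp [hν, hne]
  have hj2T : j2 ∈ T := Finset.mem_of_mem_erase hj2
  have hνj2 : ν j2 ≠ 0 := by
    have hne : j2 ≠ a := Finset.ne_of_mem_erase hj2
    simpa [hν, hne] using hj2ne
  -- exit times
  set tt : ℕ → ℝ := fun j => (|ν j| - ν j * w0 j) / (ν j) ^ 2 with htt
  have htt_mul : ∀ j, ν j ≠ 0 → tt j * (ν j) ^ 2 = |ν j| - ν j * w0 j := by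
    intro j hj
    simp only [htt]
    exact div_mul_cancel₀ _ (pow_ne_zero 2 hj)
  have hlow : ∀ j ∈ T, -|ν j| ≤ ν j * w0 j := by
    intro j hj
    have h1 : -|ν j * w0 j| ≤ ν j * w0 j := neg_abs_le _
    have h2 : |ν j * w0 j| ≤ |ν j| := by
      rw [abs_mul]
      exact mul_le_of_le_one_right (abs_nonneg _) (hw0le j hj)
    linarith
  have hupp : ∀ j ∈ T, ν j * w0 j ≤ |ν j| := by
    intro j hj
    have h1 : ν j * w0 j ≤ |ν j * w0 j| := le_abs_self _
    have h2 : |ν j * w0 j| ≤ |ν j| := by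
      rw [abs_mul]
      exact mul_le_of_le_one_right (abs_nonneg _) (hw0le j hj)
    linarith
  have htt_nonneg : ∀ j ∈ T, 0 ≤ tt j := by
    intro j hj
    simp only [htt]
    exact div_nonneg (by linarith [hupp j hj]) (sq_nonneg _)
  have hSne : (T.filter (fun j => ν j ≠ 0)).Nonempty :=
    ⟨j2, Finset.mem_filter.mpr ⟨hj2T, hνj2⟩⟩
  obtain ⟨b, hb, hmin⟩ := Finset.exists_min_image (T.filter (fun j => ν j ≠ 0)) tt hSne
  have hbT : b ∈ T := (Finset.mem_filter.mp hb).1
  have hνb : ν b ≠ 0 := (Finset.mem_filter.mp hb).2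
  have htb : 0 ≤ tt b := htt_nonneg b hbT
  refine ⟨fun j => w0 j + tt b * ν j, ?_, ?_, a, ha, b, hbT, ?_, ?_, ?_⟩
  · have : ∑ j ∈ T, (w0 j + tt b * ν j) • c j
        = ∑ j ∈ T, w0 j • c j + tt b • ∑ j ∈ T, ν j • c j := by
      rw [Finset.smul_sum, ← Finset.sum_add_distrib]
      apply Finset.sum_congr rfl
      intro j _
      rw [add_smul, mul_smul]
    rw [this, hw0sum, hνsum, smul_zero, add_zero]
  · intro j hj
    by_cases hνj : ν j = 0
    · simp only [hνj, mul_zero, add_zero]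
      exact hw0le j hj
    · have hjS : j ∈ T.filter (fun j => ν j ≠ 0) := Finset.mem_filter.mpr ⟨hj, hνj⟩
      have hle : tt b ≤ tt j := hmin j hjS
      have hsq : 0 < (ν j) ^ 2 := by positivity
      have h1 : |ν j * (w0 j + tt b * ν j)| ≤ |ν j| := by
        rw [abs_le]
        constructor
        · nlinarith [hlow j hj, mul_nonneg htb (le_of_lt hsq)]
        · have := htt_mul j hνj
          nlinarith [mul_le_mul_of_nonneg_right hle (le_of_lt hsq)]
      rw [abs_mul] at h1
      have hpos' : 0 < |ν j| := abs_pos.mpr hνj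
      exact le_of_mul_le_mul_left (by linarith) hpos'
  · intro hab
    rw [hab] at hνa
    exact hνb hνa
  · simp only [hνa, mul_zero, add_zero]
    exact hw0a
  · have h1 : ν b * (w0 b + tt b * ν b) = |ν b| := by
      have := htt_mul b hνb
      nlinarith
    have h2 : |ν b| * |w0 b + tt b * ν b| = |ν b| := by
      rw [← abs_mul, h1, abs_abs]
    have hpos' : 0 < |ν b| := abs_pos.mpr hνb
    have h3 : |ν b| * |w0 b + tt b * ν b| = |ν b| * 1 := by rw [h2, mul_one]
    exact mul_left_cancel₀ (ne_of_gt hpos') h3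

end vert

end Vale.Agent.H70.Merge
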