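import Mathlib
import Vale.Agent.H70.Merge
import Vale.Agent.H70.MergeGeom
import Vale.Agent.H70.MergeSix

/-!
# Unmergeable families in dimension at most four

At least `dim + 2` and at most six vectors of the unit ball always have a signed sum of at
least two members in the unit ball.  Hence an unmergeable family in the unit ball of a space
of dimension at most four has at most five members, and all its signed sums have squared norm
at most fifteen.
-/

namespace Vale.Agent.H70.Merge

open Finset

section short

variable {E : Type*} [NormedAddCommGroup E] [InnerProductSpace ℝ E]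

/-- at least `dim + 2` and at most six unit-ball vectors: some signed sum of at least two of
them has norm at most one -/
theorem exists_short [FiniteDimensional ℝ E] (T : Finset ℕ) (c : ℕ → E)
    (h : Module.finrank ℝ E + 2 ≤ T.card) (h6 : T.card ≤ 6) (hc : ∀ j ∈ T, ‖c j‖ ≤ 1) :
    ∃ S : Finset ℕ, S ⊆ T ∧ 2 ≤ S.card ∧
      ∃ ζ : ℕ → ℝ, IsSign ζ ∧ ‖∑ j ∈ S, ζ j • c j‖ ≤ 1 := by
  obtain ⟨w, hw, hwle, a, ha, b, hb, hab, hwa, hwb⟩ := exists_two_extreme T c h
  have hbe : b ∈ T.erase a := Finset.mem_erase.mpr ⟨fun hba => hab hba.symm, hb⟩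
  set F : Finset ℕ := (T.erase a).erase b with hF
  have hFT : ∀ j ∈ F, j ∈ T := fun j hj =>
    Finset.mem_of_mem_erase (Finset.mem_of_mem_erase hj)
  have haF : a ∉ F := fun haF => by
    have := Finset.mem_of_mem_erase haF
    exact (Finset.notMem_erase a T) this
  have hbF : b ∉ F := Finset.notMem_erase b _
  have hFcard : F.card ≤ 4 := by
    rw [hF, Finset.card_erase_of_mem hbe, Finset.card_erase_of_mem ha]
    omega
  have hsplit : w a • c a + w b • c b + ∑ j ∈ F, w j • c j = 0 := by
    rw [← hw, ← Finset.add_sum_erase T _ ha, ← Finset.add_sum_erase (T.erase a) _ hbe,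
      add_assoc]
  obtain ⟨τ, hτ, hround⟩ := exists_rounding F c w (fun j hj => hwle j (hFT j hj))
    (w a • c a + w b • c b + ∑ j ∈ F, w j • c j)
  -- the rounded vector
  have hvec : w a • c a + w b • c b + ∑ j ∈ F, w j • c j + ∑ j ∈ F, (τ j - w j) • c j
      = w a • c a + w b • c b + ∑ j ∈ F, τ j • c j := by
    have : ∑ j ∈ F, (τ j - w j) • c j = ∑ j ∈ F, τ j • c j - ∑ j ∈ F, w j • c j := by
      rw [← Finset.sum_sub_distrib]
      apply Finset.sum_congr rfl
      intro j _
      rw [sub_smul]
    rw [this]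
    abel
  rw [hvec, hsplit, norm_zero] at hround
  have hbound : ∑ j ∈ F, |w j| * (1 - |w j|) * ‖c j‖ ^ 2 ≤ 1 := by
    calc ∑ j ∈ F, |w j| * (1 - |w j|) * ‖c j‖ ^ 2 ≤ ∑ j ∈ F, (1 / 4 : ℝ) := by
          apply Finset.sum_le_sum
          intro j hj
          have h1 := hc j (hFT j hj)
          have h2 : 0 ≤ |w j| := abs_nonneg _
          have h3 := hwle j (hFT j hj)
          have h4 : ‖c j‖ ^ 2 ≤ 1 := by nlinarith [norm_nonneg (c j)]
          have h5 : |w j| * (1 - |w j|) ≤ 1 / 4 := by nlinarith [sq_nonneg (|w j| - 1 / 2)]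
          have h6' : 0 ≤ |w j| * (1 - |w j|) := mul_nonneg h2 (by linarith)
          nlinarith [sq_nonneg ‖c j‖]
      _ = (F.card : ℝ) * (1 / 4) := by rw [Finset.sum_const, nsmul_eq_mul]
      _ ≤ 1 := by
        have : (F.card : ℝ) ≤ 4 := by exact_mod_cast hFcard
        linarith
  have hnorm : ‖w a • c a + w b • c b + ∑ j ∈ F, τ j • c j‖ ≤ 1 := by
    have hsq : ‖w a • c a + w b • c b + ∑ j ∈ F, τ j • c j‖ ^ 2 ≤ 1 := by
      have h0 : (0 : ℝ) ^ 2 = 0 := by norm_num
      rw [h0, zero_add] at hround
      linarith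
    nlinarith [norm_nonneg (w a • c a + w b • c b + ∑ j ∈ F, τ j • c j)]
  -- the merged set and its signs
  set G : Finset ℕ := F.filter (fun j => τ j ≠ 0) with hG
  have haG : a ∉ G := fun h => haF (Finset.mem_of_mem_filter a h)
  have hbG : b ∉ G := fun h => hbF (Finset.mem_of_mem_filter b h)
  have haI : a ∉ insert b G := by
    intro h
    rcases Finset.mem_insert.mp h with h | h
    · exact hab h
    · exact haG h
  refine ⟨insert a (insert b G), ?_, ?_,
    fun j => if j = a then w a else if j = b then w b else if τ j = 0 then 1 else τ j, ?_, ?_⟩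
  · intro j hj
    rcases Finset.mem_insert.mp hj with rfl | hj
    · exact ha
    · rcases Finset.mem_insert.mp hj with rfl | hj
      · exact hb
      · exact hFT j (Finset.mem_of_mem_filter j hj)
  · rw [Finset.card_insert_of_notMem haI, Finset.card_insert_of_notMem hbG]
    omega
  · intro j
    by_cases hja : j = a
    · simp only [hja, if_true]
      exact (abs_eq (by norm_num : (0 : ℝ) ≤ 1)).mp hwa
    · by_cases hjb : j = b
      · simp only [hjb, if_true, if_neg (fun hba : b = a => hab hba.symm)]
        exact (abs_eq (by norm_num : (0 : ℝ) ≤ 1)).mp hwb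
      · simp only [hja, hjb, if_false]
        by_cases ht : τ j = 0
        · simp [ht]
        · simp only [ht, if_false]
          rcases hτ j with h0 | h1 | h1
          · exact absurd h0 ht
          · exact Or.inl h1
          · exact Or.inr h1
  · rw [Finset.sum_insert haI, Finset.sum_insert hbG]
    have hGsum : ∑ j ∈ G,
        (if j = a then w a else if j = b then w b else if τ j = 0 then 1 else τ j) • c j
        = ∑ j ∈ F, τ j • c j := by
      rw [hG, Finset.sum_filter]
      apply Finset.sum_congr rfl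
      intro j hj
      have hja : j ≠ a := fun h => haF (h ▸ hj)
      have hjb : j ≠ b := fun h => hbF (h ▸ hj)
      by_cases ht : τ j = 0
      · simp [ht]
      · simp [ht, hja, hjb]
    rw [hGsum]
    simp only [if_true, if_neg (fun hba : b = a => hab hba.symm)]
    rw [← add_assoc]
    exact hnorm

/-- in dimension at most four an unmergeable family in the unit ball has at most five
members -/
theorem Unmergeable.card_le_five [FiniteDimensional ℝ E] (hd : Module.finrank ℝ E ≤ 4)
    {J : Finset ℕ} {c : ℕ → E} (hc : ∀ j ∈ J, ‖c j‖ ≤ 1) (hU : Unmergeable J c) :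
    J.card ≤ 5 := by
  by_contra hcon
  obtain ⟨T, hTJ, hTcard⟩ := Finset.exists_subset_card_eq (show 6 ≤ J.card by omega)
  obtain ⟨S, hST, hScard, ζ, hζ, hle⟩ :=
    exists_short T c (by omega) (by omega) (fun j hj => hc j (hTJ hj))
  have := hU S (hST.trans hTJ) hScard ζ hζ
  linarith

/-- in dimension at most four every signed sum of an unmergeable family in the unit ball has
squared norm at most fifteen -/
theorem Unmergeable.sq_norm_le_fifteen [FiniteDimensional ℝ E]
    (hd : Module.finrank ℝ E ≤ 4) {J : Finset ℕ} {c : ℕ → E}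
    (hc : ∀ j ∈ J, ‖c j‖ ≤ 1) (hU : Unmergeable J c) (θ : ℕ → ℝ) (hθ : IsSign θ) :
    ‖∑ j ∈ J, θ j • c j‖ ^ 2 ≤ 15 := by
  have h1 := sq_norm_sum_le J c hc (fun i hi j hj hij => by
    have h2 := hU.inner_lt hc hi hj hij
    have h3 := hc j hj
    nlinarith [norm_nonneg (c j)]) θ hθ
  have h4 : (J.card : ℝ) ≤ 5 := by exact_mod_cast hU.card_le_five hd hc
  have h5 : (0 : ℝ) ≤ J.card := Nat.cast_nonneg _
  nlinarith

end short

end Vale.Agent.H70.Merge
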