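import Mathlib

/-!
# From signs to rearrangements (Chobanyan's transference argument)

Statements by helper70, proofs by helper79 (board row 642, problem P262).

## `exists_perm_of_signs`
`v : Fin N → E` has sum zero, `ε` are signs.  `A` bounds all partial sums `v 0 + ... + v (k-1)`,
`B` bounds all signed partial sums.  Claim: some rearrangement has all partial sums bounded by
`(A + B) / 2`.

Proof.  Let `P = {i | ε i = 1}` and `M = {i | ε i = -1}`.  The rearrangement lists `P` in
increasing order and then `M` in decreasing order.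
* A partial sum that uses only members of `P` is `∑_{i ∈ P, i < m} v i` for some `m ≤ N`, and
  `∑_{i ∈ P, i < m} v i = (1/2) (∑_{i < m} v i + ∑_{i < m} ε i • v i)`, of norm `≤ (A + B) / 2`.
* A partial sum that uses all of `P` and the members `i ≥ m` of `M` equals, because the total
  sum is zero, `- ∑_{i ∈ M, i < m} v i = -(1/2) (∑_{i < m} v i - ∑_{i < m} ε i • v i)`, again of
  norm `≤ (A + B) / 2`.
One way to build the permutation: sort `Fin N` by the injective integer key
`i ↦ if ε i = 1 then (i : ℤ) else 2 * N - i`; or prove a list version first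
(`(l.filter p) ++ (l.filter (¬ p)).reverse` is a permutation of `l`) and transport it.

## `steinitz_of_signs`
If `C` is a sign-sequence constant of `E` (every finite sequence in the unit ball has signs
with all signed partial sums of norm `≤ C`), then every zero-sum finite sequence in the unit
ball has a rearrangement with all partial sums of norm `≤ C`.

Proof.  Among the finitely many permutations `π` choose one minimising
`β π = max_{k ≤ N} ‖v (π 0) + ... + v (π (k-1))‖` (for instance the maximum over `k : Fin (N+1)`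
via `Finset.sup'`, and `Finset.exists_min_image` over `Finset.univ`).  Apply the hypothesis to
`v ∘ π₀` to get signs with `B ≤ C`, then `exists_perm_of_signs` to `v ∘ π₀` with `A = β π₀`:
the new permutation `π₀ * π'` has `β ≤ (β π₀ + C) / 2`, and minimality gives `β π₀ ≤ C`.
-/

namespace Vale.Agent.H70.Transfer

/-- The sorting key: members with sign `+1` by index, then members with sign `-1` by reversed
index. -/
noncomputable def tr_key (N : ℕ) (ε : Fin N → ℝ) (i : Fin N) : ℕ :=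
  if 0 < ε i then (i : ℕ) else 2 * N - (i : ℕ)

theorem tr_key_pos (N : ℕ) (ε : Fin N → ℝ) (i : Fin N) (h : ε i = 1) :
    tr_key N ε i = (i : ℕ) := by
  unfold tr_key
  rw [if_pos (by rw [h]; norm_num)]

theorem tr_key_neg (N : ℕ) (ε : Fin N → ℝ) (i : Fin N) (h : ε i = -1) :
    tr_key N ε i = 2 * N - (i : ℕ) := by
  unfold tr_key
  rw [if_neg (by rw [h]; norm_num)]

theorem tr_key_inj (N : ℕ) (ε : Fin N → ℝ) (hε : ∀ i, ε i = 1 ∨ ε i = -1) :
    Function.Injective (tr_key N ε) := by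
  intro i j hij
  have hi := i.isLt
  have hj := j.isLt
  apply Fin.ext
  rcases hε i with h1 | h1 <;> rcases hε j with h2 | h2
  · rw [tr_key_pos N ε i h1, tr_key_pos N ε j h2] at hij
    exact hij
  · rw [tr_key_pos N ε i h1, tr_key_neg N ε j h2] at hij
    omega
  · rw [tr_key_neg N ε i h1, tr_key_pos N ε j h2] at hij
    omega
  · rw [tr_key_neg N ε i h1, tr_key_neg N ε j h2] at hij
    omega

theorem exists_perm_of_signs {E : Type*} [NormedAddCommGroup E] [NormedSpace ℝ E]
    (N : ℕ) (v : Fin N → E) (hsum : ∑ i, v i = 0) (ε : Fin N → ℝ)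
    (hε : ∀ i, ε i = 1 ∨ ε i = -1) (A B : ℝ)
    (hA : ∀ k : ℕ, k ≤ N → ‖∑ i : Fin N, if (i : ℕ) < k then v i else 0‖ ≤ A)
    (hB : ∀ k : ℕ, k ≤ N → ‖∑ i : Fin N, if (i : ℕ) < k then ε i • v i else 0‖ ≤ B) :
    ∃ π : Equiv.Perm (Fin N), ∀ k : ℕ, k ≤ N →
      ‖∑ i : Fin N, if (i : ℕ) < k then v (π i) else 0‖ ≤ (A + B) / 2 := by
  have hA0 : 0 ≤ A := (norm_nonneg _).trans (hA 0 (Nat.zero_le N))
  have hB0 : 0 ≤ B := (norm_nonneg _).trans (hB 0 (Nat.zero_le N))
  obtain ⟨σ, hmono⟩ : ∃ σ : Equiv.Perm (Fin N), StrictMono (tr_key N ε ∘ σ) :=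
    ⟨Tuple.sort (tr_key N ε), (Tuple.monotone_sort (tr_key N ε)).strictMono_of_injective
      ((tr_key_inj N ε hε).comp (Tuple.sort (tr_key N ε)).injective)⟩
  have hhalf : ‖(1 / 2 : ℝ)‖ = 1 / 2 := Real.norm_of_nonneg (by norm_num)
  refine ⟨σ, fun k hk => ?_⟩
  rcases Nat.lt_or_ge k N with hkN | hkN
  · have hre : (∑ i : Fin N, if (i : ℕ) < k then v (σ i) else 0)
        = ∑ j : Fin N, if tr_key N ε j < tr_key N ε (σ ⟨k, hkN⟩) then v j else 0 := by
      rw [← Equiv.sum_comp σ
        (fun j => if tr_key N ε j < tr_key N ε (σ ⟨k, hkN⟩) then v j else 0)]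
      apply Finset.sum_congr rfl
      intro i _
      have h1 : (tr_key N ε (σ i) < tr_key N ε (σ ⟨k, hkN⟩)) ↔ (i : ℕ) < k := by
        have h2 := hmono.lt_iff_lt (a := i) (b := ⟨k, hkN⟩)
        simp only [Function.comp] at h2
        rw [h2, Fin.lt_def]
      by_cases hik : (i : ℕ) < k
      · rw [if_pos hik, if_pos (h1.mpr hik)]
      · rw [if_neg hik, if_neg (fun hc => hik (h1.mp hc))]
    rw [hre]
    have hj0N := (σ ⟨k, hkN⟩).isLt
    rcases hε (σ ⟨k, hkN⟩) with h0 | h0
    · have hkey : ∀ j : Fin N,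
          (if tr_key N ε j < tr_key N ε (σ ⟨k, hkN⟩) then v j else 0)
          = (1 / 2 : ℝ) • ((if (j : ℕ) < ((σ ⟨k, hkN⟩ : Fin N) : ℕ) then v j else 0)
            + (if (j : ℕ) < ((σ ⟨k, hkN⟩ : Fin N) : ℕ) then ε j • v j else 0)) := by
        intro j
        have hjN := j.isLt
        rw [tr_key_pos N ε _ h0]
        rcases hε j with h1 | h1
        · rw [tr_key_pos N ε j h1, h1]
          by_cases hj : (j : ℕ) < ((σ ⟨k, hkN⟩ : Fin N) : ℕ)
          · simp only [if_pos hj]
            rw [one_smul, ← two_smul ℝ (v j), smul_smul]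
            norm_num
          · simp only [if_neg hj]
            simp
        · rw [tr_key_neg N ε j h1, h1, if_neg (by omega)]
          by_cases hj : (j : ℕ) < ((σ ⟨k, hkN⟩ : Fin N) : ℕ)
          · simp only [if_pos hj]
            simp
          · simp only [if_neg hj]
            simp
      rw [Finset.sum_congr rfl (fun j _ => hkey j), ← Finset.smul_sum, Finset.sum_add_distrib,
        norm_smul, hhalf]
      have h1 := hA ((σ ⟨k, hkN⟩ : Fin N) : ℕ) hj0N.le
      have h2 := hB ((σ ⟨k, hkN⟩ : Fin N) : ℕ) hj0N.le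
      have h3 := norm_add_le
        (∑ i : Fin N, if (i : ℕ) < ((σ ⟨k, hkN⟩ : Fin N) : ℕ) then v i else 0)
        (∑ i : Fin N, if (i : ℕ) < ((σ ⟨k, hkN⟩ : Fin N) : ℕ) then ε i • v i else 0)
      linarith
    · have hkey : ∀ j : Fin N,
          (if tr_key N ε j < tr_key N ε (σ ⟨k, hkN⟩) then v j else 0)
          = v j - (1 / 2 : ℝ) • ((if (j : ℕ) < ((σ ⟨k, hkN⟩ : Fin N) : ℕ) + 1 then v j else 0)
            - (if (j : ℕ) < ((σ ⟨k, hkN⟩ : Fin N) : ℕ) + 1 then ε j • v j else 0)) := by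
        intro j
        have hjN := j.isLt
        rw [tr_key_neg N ε _ h0]
        rcases hε j with h1 | h1
        · rw [tr_key_pos N ε j h1, h1, if_pos (by omega)]
          by_cases hj : (j : ℕ) < ((σ ⟨k, hkN⟩ : Fin N) : ℕ) + 1
          · simp only [if_pos hj]
            simp
          · simp only [if_neg hj]
            simp
        · rw [tr_key_neg N ε j h1, h1]
          by_cases hj : (j : ℕ) < ((σ ⟨k, hkN⟩ : Fin N) : ℕ) + 1
          · rw [if_neg (by omega)]
            simp only [if_pos hj]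
            rw [neg_one_smul, sub_neg_eq_add, ← two_smul ℝ (v j), smul_smul]
            norm_num
          · rw [if_pos (by omega)]
            simp only [if_neg hj]
            simp
      rw [Finset.sum_congr rfl (fun j _ => hkey j), Finset.sum_sub_distrib, hsum, zero_sub,
        norm_neg, ← Finset.smul_sum, Finset.sum_sub_distrib, norm_smul, hhalf]
      have h1 := hA (((σ ⟨k, hkN⟩ : Fin N) : ℕ) + 1) hj0N
      have h2 := hB (((σ ⟨k, hkN⟩ : Fin N) : ℕ) + 1) hj0N
      have h3 := norm_sub_le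
        (∑ i : Fin N, if (i : ℕ) < ((σ ⟨k, hkN⟩ : Fin N) : ℕ) + 1 then v i else 0)
        (∑ i : Fin N, if (i : ℕ) < ((σ ⟨k, hkN⟩ : Fin N) : ℕ) + 1 then ε i • v i else 0)
      linarith
  · have h1 : (∑ i : Fin N, if (i : ℕ) < k then v (σ i) else 0) = 0 := by
      rw [← hsum, ← Equiv.sum_comp σ v]
      apply Finset.sum_congr rfl
      intro i _
      rw [if_pos (lt_of_lt_of_le i.isLt hkN)]
    rw [h1, norm_zero]
    linarith

theorem steinitz_of_signs {E : Type*} [NormedAddCommGroup E] [NormedSpace ℝ E] (C : ℝ)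
    (hC : ∀ (N : ℕ) (v : Fin N → E), (∀ i, ‖v i‖ ≤ 1) →
      ∃ ε : Fin N → ℝ, (∀ i, ε i = 1 ∨ ε i = -1) ∧
        ∀ k : ℕ, k ≤ N → ‖∑ i : Fin N, if (i : ℕ) < k then ε i • v i else 0‖ ≤ C)
    (N : ℕ) (v : Fin N → E) (hv : ∀ i, ‖v i‖ ≤ 1) (hsum : ∑ i, v i = 0) :
    ∃ π : Equiv.Perm (Fin N), ∀ k : ℕ, k ≤ N →
      ‖∑ i : Fin N, if (i : ℕ) < k then v (π i) else 0‖ ≤ C := by
  have hne : (Finset.range (N + 1)).Nonempty := ⟨0, Finset.mem_range.mpr (Nat.succ_pos N)⟩
  obtain ⟨β, hβ, hβle⟩ : ∃ β : Equiv.Perm (Fin N) → ℝ,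
      (∀ π : Equiv.Perm (Fin N), ∀ k : ℕ, k ≤ N →
        ‖∑ i : Fin N, if (i : ℕ) < k then v (π i) else 0‖ ≤ β π) ∧
      (∀ π : Equiv.Perm (Fin N), ∀ c : ℝ, (∀ k : ℕ, k ≤ N →
        ‖∑ i : Fin N, if (i : ℕ) < k then v (π i) else 0‖ ≤ c) → β π ≤ c) := by
    refine ⟨fun π => (Finset.range (N + 1)).sup' hne
      (fun k => ‖∑ i : Fin N, if (i : ℕ) < k then v (π i) else 0‖), ?_, ?_⟩
    · intro π k hk
      exact Finset.le_sup' (fun k => ‖∑ i : Fin N, if (i : ℕ) < k then v (π i) else 0‖)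
        (Finset.mem_range.mpr (Nat.lt_succ_of_le hk))
    · intro π c h
      apply Finset.sup'_le
      intro k hk
      exact h k (Nat.lt_succ_iff.mp (Finset.mem_range.mp hk))
  obtain ⟨π0, -, hmin⟩ := Finset.exists_min_image
    (Finset.univ : Finset (Equiv.Perm (Fin N))) β ⟨1, Finset.mem_univ _⟩
  obtain ⟨ε, hε, hεC⟩ := hC N (fun i => v (π0 i)) (fun i => hv (π0 i))
  have hsum' : ∑ i, (fun i => v (π0 i)) i = 0 := by
    rw [← hsum]
    exact Equiv.sum_comp π0 v
  obtain ⟨π', hπ'⟩ :=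
    exists_perm_of_signs N (fun i => v (π0 i)) hsum' ε hε (β π0) C (hβ π0) hεC
  have h1 : β (π0 * π') ≤ (β π0 + C) / 2 := by
    apply hβle
    intro k hk
    exact hπ' k hk
  have h2 : β π0 ≤ β (π0 * π') := hmin _ (Finset.mem_univ _)
  have h3 : β π0 ≤ C := by linarith
  exact ⟨π0, fun k hk => (hβ π0 k hk).trans h3⟩

end Vale.Agent.H70.Transfer
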